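import Vale.Agent.P216.MV337.Sys

/-!
# P216-C, [C-TRIV]: path spaces over a space of parameters

`PY f g L t`: pairs `(y, w)`, `y ∈ L`, `w` a Moore-Lipschitz path from `f y` to `g y` of time `t`.
`TrY L f f' ℓ S`: tracks of time `ℓ` from `f y` to `f' y`, `y ∈ L`.
`tw m t S R`: transport of `PY f g L t` to `PY f' g' L (t + (m + m'))` along tracks.
-/

set_option linter.all false

namespace Vale.Agent.P216.C337

open Set Filter Topology BoundedContinuousFunction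
open Vale.Agent.P216.PS Vale.Agent.P216.MV337

section conj

variable {M : Type*} [MetricSpace M] {a b : M} {t m m' n u : ℝ} {p p' q q' w : ℝ → M}

/-- `p` backwards in time `m`, then `w` in time `t`, then `q` -/
noncomputable def c2 (m t : ℝ) (p q w : ℝ → M) (u : ℝ) : M :=
  if u ≤ m then p (m - u) else if u ≤ m + t then w (u - m) else q (u - m - t)

theorem c2_one (hu : u ≤ m) : c2 m t p q w u = p (m - u) := if_pos hu

theorem c2_two (h0 : w 0 = p 0) (hu : m ≤ u) (hu' : u ≤ m + t) : c2 m t p q w u = w (u - m) := by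
  rcases hu.eq_or_lt with rfl | hu
  · rw [c2_one le_rfl, sub_self, h0]
  · rw [c2, if_neg (not_le.2 hu), if_pos hu']

theorem c2_three (h0 : w 0 = p 0) (ht : 0 ≤ t) (h1 : w t = q 0) (hu : m + t ≤ u) :
    c2 m t p q w u = q (u - m - t) := by
  rcases hu.eq_or_lt with rfl | hu
  · rw [c2_two h0 (by linarith) le_rfl, add_sub_cancel_left, sub_self, h1]
  · rw [c2, if_neg (by linarith), if_neg (not_le.2 hu)]

theorem lip_c2 (hp : Lip p) (hq : Lip q) (hw : Lip w) (ht : 0 ≤ t) (h0 : w 0 = p 0)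
    (h1 : w t = q 0) : Lip (c2 m t p q w) := by
  refine lip_glue m (fun u v huv hv => ?_) fun u v hu huv => ?_
  · rw [c2_one (huv.trans hv), c2_one hv, dist_comm]
    exact (hp.le (by linarith)).trans_eq (by ring)
  rcases le_total v (m + t) with hv | hv
  · rw [c2_two h0 hu (huv.trans hv), c2_two h0 (hu.trans huv) hv]
    exact (hw.le (by linarith)).trans_eq (by ring)
  rcases le_total (m + t) u with hu' | hu'
  · rw [c2_three h0 ht h1 hu', c2_three h0 ht h1 hv]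
    exact (hq.le (by linarith)).trans_eq (by ring)
  · have e1 : dist (c2 m t p q w u) (q 0) ≤ m + t - u := by
      rw [c2_two h0 hu hu', ← h1]
      exact (hw.le (by linarith)).trans_eq (by ring)
    have e2 : dist (q 0) (c2 m t p q w v) ≤ v - m - t := by
      rw [c2_three h0 ht h1 hv]
      exact (hq.le (by linarith)).trans_eq (by ring)
    linarith [dist_triangle (c2 m t p q w u) (q 0) (c2 m t p q w v)]

theorem c2_nonpos (hm : 0 ≤ m) (hp : ∀ u, m ≤ u → p u = a) (hu : u ≤ 0) : c2 m t p q w u = a := by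
  rw [c2_one (hu.trans hm), hp _ (by linarith)]

theorem c2_ge (ht : 0 ≤ t) (hm : 0 ≤ m) (hm' : 0 ≤ m') (h0 : w 0 = p 0) (h1 : w t = q 0)
    (hq : ∀ u, m' ≤ u → q u = b) (hu : t + (m + m') ≤ u) : c2 m t p q w u = b := by
  rw [c2_three h0 ht h1 (by linarith), hq _ (by linarith)]

/-- Twisting by constant paths is a shift in time. -/
theorem c2_const (w : ℝ → M) (a b : M) (ht : 0 ≤ t) (hw : ∀ u ≤ 0, w u = a)
    (hw' : ∀ u, t ≤ u → w u = b) : c2 m t (fun _ => a) (fun _ => b) w u = w (u - m) := by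
  rcases le_total u m with h | h
  · rw [c2_one h, hw _ (by linarith)]
  rcases le_total u (m + t) with h' | h'
  · rw [c2_two (hw 0 le_rfl) h h']
  · rw [c2_three (hw 0 le_rfl) ht (hw' t le_rfl) h', hw' _ (by linarith)]

/-- Twisting twice. `p` has time `m`, `q` has time `m'`, `p'` has time `n`. -/
theorem c2_c2 (ht : 0 ≤ t) (hm : 0 ≤ m) (hm' : 0 ≤ m') (hn : 0 ≤ n) (h0 : w 0 = p 0)
    (h1 : w t = q 0) (hpp : p m = p' 0) (hqq : q m' = q' 0) (hp : ∀ u, m ≤ u → p u = p m)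
    (hq : ∀ u, m' ≤ u → q u = q m') (u : ℝ) :
    c2 n (t + (m + m')) p' q' (c2 m t p q w) u =
      c2 (m + n) t (catf m p p') (catf m' q q') w u := by
  have cp : catf m p p' 0 = p 0 := catf_left hm
  have cq : catf m' q q' 0 = q 0 := catf_left hm'
  have e0 : c2 m t p q w 0 = p' 0 := by rw [c2_nonpos hm hp le_rfl, hpp]
  have e1 : c2 m t p q w (t + (m + m')) = q' 0 := by rw [c2_ge ht hm hm' h0 h1 hq le_rfl, hqq]
  rcases le_total u n with h | h
  · rw [c2_one h, c2_one (by linarith), catf_right hpp (by linarith)]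
    congr 1; ring
  rcases le_total u (m + n) with h' | h'
  · rw [c2_two e0 h (by linarith), c2_one (by linarith), c2_one h', catf_left (by linarith)]
    congr 1; ring
  rcases le_total u (m + n + t) with h2 | h2
  · rw [c2_two e0 h (by linarith), c2_two h0 (by linarith) (by linarith),
      c2_two (h0.trans cp.symm) h' h2]
    congr 1; ring
  rcases le_total u (m + n + t + m') with h3 | h3
  · rw [c2_two e0 h (by linarith), c2_three h0 ht h1 (by linarith),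
      c2_three (h0.trans cp.symm) ht (h1.trans cq.symm) h2, catf_left (by linarith)]
    congr 1; ring
  · rw [c2_three e0 (by linarith) e1 (by linarith),
      c2_three (h0.trans cp.symm) ht (h1.trans cq.symm) h2, catf_right hqq (by linarith)]
    congr 1; ring

theorem mo_c2_mem [CompactSpace M] (hp : Lip p) (hq : Lip q) (hw : Lip w) (ht : 0 ≤ t)
    (hm : 0 ≤ m) (hm' : 0 ≤ m') (h0 : w 0 = p 0) (h1 : w t = q 0) (hpa : ∀ u, m ≤ u → p u = a)
    (hqb : ∀ u, m' ≤ u → q u = b) : mo (c2 m t p q w) ∈ P a b (t + (m + m')) :=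
  mo_mem (lip_c2 hp hq hw ht h0 h1) (fun u hu => c2_nonpos hm hpa hu)
    fun u hu => c2_ge ht hm hm' h0 h1 hqb hu

/-- Pointwise continuity. -/
theorem continuousOn_c2 {S : Type*} [TopologicalSpace S] {A : Set S} {Q Q' : S → ℝ → M}
    {W : S → ℝ → M} {m t : S → ℝ} (u : ℝ) (hm : ContinuousOn m A) (htc : ContinuousOn t A)
    (hQ : ∀ φ : S → ℝ, ContinuousOn φ A → ContinuousOn (fun s => Q s (φ s)) A)
    (hQ' : ∀ φ : S → ℝ, ContinuousOn φ A → ContinuousOn (fun s => Q' s (φ s)) A)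
    (hW : ∀ φ : S → ℝ, ContinuousOn φ A → ContinuousOn (fun s => W s (φ s)) A)
    (ht : ∀ s ∈ A, 0 ≤ t s) (h0 : ∀ s ∈ A, W s 0 = Q s 0) (h1 : ∀ s ∈ A, W s (t s) = Q' s 0) :
    ContinuousOn (fun s => c2 (m s) (t s) (Q s) (Q' s) (W s) u) A := by
  unfold c2
  refine PS.ContinuousOn.if_le' (hQ _ (hm.sub continuousOn_const)) ?_ continuousOn_const hm
    fun s hs he => ?_
  · refine PS.ContinuousOn.if_le' (hW _ (continuousOn_const.sub hm))
      (hQ' _ ((continuousOn_const.sub hm).sub htc)) continuousOn_const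
      (hm.add htc) fun s hs he => ?_
    rw [he, add_sub_cancel_left, sub_self, h1 s hs]
  · rw [he, sub_self, if_pos (by linarith [ht s hs]), h0 s hs]

end conj

/-! ### Path spaces with parameters, tracks -/

section def_

variable {Y M : Type*} [MetricSpace M]

/-- pairs `(y, w)`, `y ∈ L`, `w` a Moore-Lipschitz path from `f y` to `g y` of time `t` -/
def PY (f g : Y → M) (L : Set Y) (t : ℝ) : Set (Y × (ℝ →ᵇ M)) :=
  {q | q.1 ∈ L ∧ q.2 ∈ P (f q.1) (g q.1) t}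

theorem PY_mono {f g : Y → M} {L L' : Set Y} {t t' : ℝ} (hL : L ⊆ L') (h : t ≤ t') :
    PY f g L t ⊆ PY f g L' t' := fun _ hq => ⟨hL hq.1, P_mono h hq.2⟩

theorem PY_const (a b : M) (L : Set Y) (t : ℝ) :
    PY (fun _ => a) (fun _ => b) L t = L ×ˢ P a b t := rfl

variable [TopologicalSpace Y]

/-- tracks of time `ℓ` from `f y` to `g y`, `y ∈ L` -/
structure TrY (L : Set Y) (f g : Y → M) (ℓ : ℝ) (T : Y → ℝ → M) : Prop where
  nonneg : 0 ≤ ℓ
  lip : ∀ y ∈ L, Lip (T y)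
  left : ∀ y ∈ L, ∀ u ≤ 0, T y u = f y
  right : ∀ y ∈ L, ∀ u, ℓ ≤ u → T y u = g y
  cont : ContinuousOn (fun p : Y × ℝ => T p.1 p.2) (L ×ˢ univ)

/-- the reversed tracks -/
def rv (ℓ : ℝ) (T : Y → ℝ → M) (y : Y) (u : ℝ) : M := T y (ℓ - u)

namespace TrY

variable {L L' : Set Y} {f g h : Y → M} {ℓ ℓ' : ℝ} {T T' : Y → ℝ → M}

theorem mono (H : TrY L' f g ℓ T) (hL : L ⊆ L') : TrY L f g ℓ T where
  nonneg := H.nonneg
  lip y hy := H.lip y (hL hy)
  left y hy := H.left y (hL hy)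
  right y hy := H.right y (hL hy)
  cont := H.cont.mono (prod_mono hL le_rfl)

theorem le (H : TrY L f g ℓ T) (hl : ℓ ≤ ℓ') : TrY L f g ℓ' T where
  nonneg := H.nonneg.trans hl
  lip := H.lip
  left := H.left
  right y hy u hu := H.right y hy u (hl.trans hu)
  cont := H.cont

theorem cont' (H : TrY L f g ℓ T) {S : Type*} [TopologicalSpace S] {A : Set S} {X : S → Y}
    {φ : S → ℝ} (hX : ContinuousOn X A) (hXL : MapsTo X A L) (hφ : ContinuousOn φ A) :
    ContinuousOn (fun s => T (X s) (φ s)) A :=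
  H.cont.comp (hX.prodMk hφ) fun s hs => ⟨hXL hs, mem_univ _⟩

theorem rv_ (H : TrY L f g ℓ T) : TrY L g f ℓ (rv ℓ T) where
  nonneg := H.nonneg
  lip y hy := (H.lip y hy).comp fun u v => by rw [abs_sub_comm u v]; apply le_of_eq; congr 1; ring
  left y hy u hu := H.right y hy _ (by linarith)
  right y hy u hu := H.left y hy _ (by linarith)
  cont := H.cont' (S := Y × ℝ) (X := fun p => p.1) (φ := fun p => ℓ - p.2) continuousOn_fst
    (fun p hp => hp.1) (by fun_prop)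

/-- constant tracks -/
theorem const_ {L : Set Y} {f : Y → M} (hf : ContinuousOn f L) : TrY L f f 0 (fun y _ => f y) where
  nonneg := le_rfl
  lip y _ := lip_const _
  left _ _ _ _ := rfl
  right _ _ _ _ := rfl
  cont := hf.comp continuousOn_fst fun p hp => hp.1

/-- concatenation of tracks -/
theorem trans (H : TrY L f g ℓ T) (H' : TrY L g h ℓ' T') :
    TrY L f h (ℓ + ℓ') (fun y => catf ℓ (T y) (T' y)) where
  nonneg := add_nonneg H.nonneg H'.nonneg
  lip y hy := lip_catf (H.lip y hy) (H'.lip y hy)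
    (by rw [H.right y hy _ le_rfl, H'.left y hy _ le_rfl])
  left y hy u hu := by
    rw [catf_left (hu.trans H.nonneg), H.left y hy u hu]
  right y hy u hu := by
    rw [catf_right (by rw [H.right y hy _ le_rfl, H'.left y hy _ le_rfl])
      (by linarith [H'.nonneg]), H'.right y hy _ (by linarith)]
  cont := by
    unfold catf
    refine PS.ContinuousOn.if_le' H.cont ?_ (by fun_prop) (by fun_prop) fun p hp he => ?_
    · exact H'.cont' (S := Y × ℝ) (X := fun p => p.1) (φ := fun p => p.2 - ℓ) continuousOn_fst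
        (fun p hp => hp.1) (by fun_prop)
    · rw [he, sub_self, H.right _ hp.1 _ le_rfl, H'.left _ hp.1 _ le_rfl]

end TrY

variable [CompactSpace M]

/-- transport along tracks -/
noncomputable def tw (m t : ℝ) (S R : Y → ℝ → M) (q : Y × (ℝ →ᵇ M)) : Y × (ℝ →ᵇ M) :=
  (q.1, mo (c2 m t (S q.1) (R q.1) q.2))

@[simp] theorem tw_fst (m t : ℝ) (S R : Y → ℝ → M) (q : Y × (ℝ →ᵇ M)) : (tw m t S R q).1 = q.1 :=
  rfl

section tw

variable {L A : Set Y} {f f' g g' : Y → M} {m m' t : ℝ} {S R : Y → ℝ → M} {q : Y × (ℝ →ᵇ M)}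

theorem h0_ (hS : TrY L f f' m S) (hq : q ∈ PY f g L t) : q.2 0 = S q.1 0 := by
  rw [eq_left hq.2 le_rfl, hS.left _ hq.1 _ le_rfl]

theorem h1_ (hR : TrY L g g' m' R) (hq : q ∈ PY f g L t) : q.2 t = R q.1 0 := by
  rw [eq_right hq.2 le_rfl, hR.left _ hq.1 _ le_rfl]

theorem tw_lip (hS : TrY L f f' m S) (hR : TrY L g g' m' R) (ht : 0 ≤ t) (hq : q ∈ PY f g L t) :
    Lip (c2 m t (S q.1) (R q.1) q.2) :=
  lip_c2 (hS.lip _ hq.1) (hR.lip _ hq.1) hq.2.1 ht (h0_ hS hq) (h1_ hR hq)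

theorem tw_mem (hS : TrY L f f' m S) (hR : TrY L g g' m' R) (ht : 0 ≤ t) (hA : q.1 ∈ A)
    (hq : q ∈ PY f g L t) : tw m t S R q ∈ PY f' g' A (t + (m + m')) :=
  ⟨hA, mo_c2_mem (hS.lip _ hq.1) (hR.lip _ hq.1) hq.2.1 ht hS.nonneg hR.nonneg (h0_ hS hq)
    (h1_ hR hq) (hS.right _ hq.1) (hR.right _ hq.1)⟩

/-- **Continuity of twisted families.** -/
theorem continuousOn_mo_c2 {Z : Type*} [TopologicalSpace Z] {B : Set Z} {X : Z → Y}
    {W : Z → ℝ →ᵇ M} {τ μ : Z → ℝ} {Pf Qf : Z → ℝ → M} {C : ℝ} (hX : ContinuousOn X B)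
    (hW : ContinuousOn W B) (hτ : ContinuousOn τ B) (hμ : ContinuousOn μ B)
    (hP : ∀ φ : Z → ℝ, ContinuousOn φ B → ContinuousOn (fun z => Pf z (φ z)) B)
    (hQ : ∀ φ : Z → ℝ, ContinuousOn φ B → ContinuousOn (fun z => Qf z (φ z)) B)
    (ht : ∀ z ∈ B, 0 ≤ τ z) (h0 : ∀ z ∈ B, W z 0 = Pf z 0) (h1 : ∀ z ∈ B, W z (τ z) = Qf z 0)
    (hl : ∀ z ∈ B, Lip (Pf z)) (hl' : ∀ z ∈ B, Lip (Qf z)) (hlW : ∀ z ∈ B, Lip (W z))
    (hC : 0 ≤ C) (hm : ∀ z ∈ B, mo (c2 (μ z) (τ z) (Pf z) (Qf z) (W z)) ∈ PP M C) :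
    ContinuousOn (fun z => (X z, mo (c2 (μ z) (τ z) (Pf z) (Qf z) (W z)))) B := by
  refine hX.prodMk (continuousOn_of_eval hC hm fun u => ?_)
  refine ContinuousOn.congr (f := fun z => c2 (μ z) (τ z) (Pf z) (Qf z) (W z) u)
    (continuousOn_c2 u hμ hτ hP hQ (fun φ hφ => continuousOn_eval hW hφ) ht h0 h1) fun z hz => ?_
  exact (lip_c2 (hl z hz) (hl' z hz) (hlW z hz) (ht z hz) (h0 z hz) (h1 z hz)).mo_apply u

/-- `tw`, jointly with the time -/
theorem continuousOn_tw' (hS : TrY L f f' m S) (hR : TrY L g g' m' R) {Z : Type*}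
    [TopologicalSpace Z] {B : Set Z} {F : Z → Y × (ℝ →ᵇ M)} {τ : Z → ℝ} {C : ℝ}
    (hF : ContinuousOn F B) (hτ : ContinuousOn τ B) (h0 : ∀ z ∈ B, 0 ≤ τ z)
    (hC : ∀ z ∈ B, τ z ≤ C) (hm : ∀ z ∈ B, F z ∈ PY f g L (τ z)) :
    ContinuousOn (fun z => tw m (τ z) S R (F z)) B := by
  have hX : ContinuousOn (fun z => (F z).1) B := continuous_fst.comp_continuousOn hF
  have hn := hS.nonneg
  have hn' := hR.nonneg
  refine continuousOn_mo_c2 (C := max 0 (C + (m + m'))) hX (continuous_snd.comp_continuousOn hF) hτ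
    continuousOn_const (fun φ hφ => hS.cont' hX (fun z hz => (hm z hz).1) hφ)
    (fun φ hφ => hR.cont' hX (fun z hz => (hm z hz).1) hφ) h0 (fun z hz => h0_ hS (hm z hz))
    (fun z hz => h1_ hR (hm z hz)) (fun z hz => hS.lip _ (hm z hz).1)
    (fun z hz => hR.lip _ (hm z hz).1) (fun z hz => (hm z hz).2.1) (le_max_left _ _) fun z hz => ?_
  exact PP_mono ((by linarith [hC z hz] : τ z + (m + m') ≤ C + (m + m')).trans (le_max_right _ _))
    (P_subset_PP (tw_mem hS hR (h0 z hz) (mem_univ _) (hm z hz)).2)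

theorem continuousOn_tw (hS : TrY L f f' m S) (hR : TrY L g g' m' R) (ht : 0 ≤ t) :
    ContinuousOn (tw m t S R) (PY f g L t) :=
  continuousOn_tw' hS hR (C := t) continuousOn_id continuousOn_const (fun _ _ => ht)
    (fun _ _ => le_rfl) fun _ hs => hs

/-! ### The homotopy from the identity to `back ∘ forth` -/

/-- excursion along a track: go out to the time `σ` and come back, in time `2 ℓ` -/
noncomputable def ex (ℓ σ : ℝ) (p : ℝ → M) (u : ℝ) : M := p (min σ (ℓ - |u - ℓ|))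

/-- the homotopy -/
noncomputable def hty (m m' t : ℝ) (S R : Y → ℝ → M) (z : ℝ × (Y × (ℝ →ᵇ M))) : Y × (ℝ →ᵇ M) :=
  (z.2.1, mo (c2 (min 1 (2 * z.1) * (2 * m)) t (ex m (max 0 (2 * z.1 - 1) * m) (S z.2.1))
    (ex m' (max 0 (2 * z.1 - 1) * m') (R z.2.1)) z.2.2))

variable {l : ℝ}

theorem ex_lip (hS : TrY L f f' m S) {y : Y} (hy : y ∈ L) (σ : ℝ) : Lip (ex m σ (S y)) := by
  refine (hS.lip y hy).comp fun u v => ?_
  refine (abs_min_sub_min_le_max _ _ _ _).trans (max_le (by simp) ?_)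
  have e : m - |u - m| - (m - |v - m|) = |v - m| - |u - m| := by ring
  rw [e]
  refine (abs_abs_sub_abs_le_abs_sub _ _).trans (le_of_eq ?_)
  rw [abs_sub_comm]
  congr 1
  ring

theorem ex_zero (hS : TrY L f f' m S) {y : Y} (hy : y ∈ L) (σ : ℝ) : ex m σ (S y) 0 = f y := by
  refine hS.left y hy _ ((min_le_right _ _).trans ?_)
  rw [zero_sub, abs_neg, abs_of_nonneg hS.nonneg, sub_self]

theorem ex_ge (hS : TrY L f f' m S) {y : Y} (hy : y ∈ L) (hl : 0 ≤ l) {u : ℝ}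
    (hu : min 1 (2 * l) * (2 * m) ≤ u) : ex m (max 0 (2 * l - 1) * m) (S y) u = f y := by
  have hn := hS.nonneg
  refine hS.left y hy _ ?_
  rcases le_total (2 * l) 1 with h1 | h1
  · rw [max_eq_left (by linarith), zero_mul]
    exact min_le_left _ _
  · rw [min_eq_left h1, one_mul] at hu
    refine (min_le_right _ _).trans ?_
    rw [abs_of_nonneg (by linarith)]
    linarith

theorem mL_nonneg (hm : 0 ≤ m) (hl : 0 ≤ l) : 0 ≤ min 1 (2 * l) * (2 * m) :=
  mul_nonneg (le_min zero_le_one (by linarith)) (by linarith)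

theorem mL_le (hm : 0 ≤ m) : min 1 (2 * l) * (2 * m) ≤ 2 * m := by
  have := mul_le_mul_of_nonneg_right (min_le_left 1 (2 * l)) (by linarith : (0:ℝ) ≤ 2 * m)
  linarith

theorem ht_mem (hS : TrY L f f' m S) (hR : TrY L g g' m' R) (ht0 : 0 ≤ t) (hl : 0 ≤ l)
    (hA : q.1 ∈ A) (hq : q ∈ PY f g L t) :
    hty m m' t S R (l, q) ∈ PY f g A (t + (m + m') + (m + m')) := by
  refine ⟨hA, P_mono (t := t + (min 1 (2 * l) * (2 * m) + min 1 (2 * l) * (2 * m'))) ?_ ?_⟩
  · linarith [mL_le (l := l) hS.nonneg, mL_le (l := l) hR.nonneg]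
  · refine mo_c2_mem (ex_lip hS hq.1 _) (ex_lip hR hq.1 _) hq.2.1 ht0 (mL_nonneg hS.nonneg hl)
      (mL_nonneg hR.nonneg hl) ?_ ?_ ?_ ?_
    · rw [ex_zero hS hq.1, eq_left hq.2 le_rfl]
    · rw [ex_zero hR hq.1, eq_right hq.2 le_rfl]
    · exact fun u hu => ex_ge hS hq.1 hl hu
    · exact fun u hu => ex_ge hR hq.1 hl hu

theorem ex_const (hS : TrY L f f' m S) {y : Y} (hy : y ∈ L) {σ : ℝ} (hσ : σ ≤ 0) :
    ex m σ (S y) = fun _ => f y := by
  funext u
  exact hS.left y hy _ ((min_le_left _ _).trans hσ)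

theorem ht_zero (hS : TrY L f f' m S) (hR : TrY L g g' m' R) (ht0 : 0 ≤ t)
    (hq : q ∈ PY f g L t) : hty m m' t S R (0, q) = q := by
  unfold hty
  refine Prod.ext rfl ?_
  show mo (c2 (min 1 (2 * 0) * (2 * m)) t (ex m (max 0 (2 * 0 - 1) * m) (S q.1))
    (ex m' (max 0 (2 * 0 - 1) * m') (R q.1)) q.2) = q.2
  have e1 : max 0 (2 * (0:ℝ) - 1) = 0 := by norm_num
  have e2 : min 1 (2 * (0:ℝ)) = 0 := by norm_num
  rw [e1, e2, zero_mul, zero_mul, zero_mul, ex_const hS hq.1 le_rfl, ex_const hR hq.1 le_rfl]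
  have e3 : c2 0 t (fun _ => f q.1) (fun _ => g q.1) q.2 = fun u => q.2 u := by
    funext u
    rw [c2_const q.2 _ _ ht0 hq.2.2.1 hq.2.2.2, sub_zero]
  rw [e3, mo_self]

theorem ex_full (hS : TrY L f f' m S) {y : Y} (hy : y ∈ L) :
    ex m m (S y) = catf m (S y) (rv m S y) := by
  funext u
  unfold ex rv
  rcases le_total u m with h1 | h1
  · rw [catf_left h1, abs_of_nonpos (by linarith), min_eq_right (by linarith)]
    congr 1; ring
  · rw [catf_right (by rw [sub_zero]) h1, abs_of_nonneg (by linarith), min_eq_right (by linarith)]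

theorem ht_one (hS : TrY L f f' m S) (hR : TrY L g g' m' R) (ht0 : 0 ≤ t)
    (hq : q ∈ PY f g L t) :
    hty m m' t S R (1, q) = tw m (t + (m + m')) (rv m S) (rv m' R) (tw m t S R q) := by
  have hn := hS.nonneg
  have hn' := hR.nonneg
  unfold hty tw
  refine Prod.ext rfl ?_
  show mo (c2 (min 1 (2 * 1) * (2 * m)) t (ex m (max 0 (2 * 1 - 1) * m) (S q.1))
    (ex m' (max 0 (2 * 1 - 1) * m') (R q.1)) q.2) =
    mo (c2 m (t + (m + m')) (rv m S q.1) (rv m' R q.1) (fun u => mo (c2 m t (S q.1) (R q.1) q.2) u))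
  have e1 : max 0 (2 * (1:ℝ) - 1) = 1 := by norm_num
  have e2 : min 1 (2 * (1:ℝ)) * (2 * m) = m + m := by norm_num; ring
  have ec : (fun u => mo (c2 m t (S q.1) (R q.1) q.2) u) = c2 m t (S q.1) (R q.1) q.2 := by
    funext u
    exact (tw_lip hS hR ht0 hq).mo_apply u
  rw [ec, e1, e2, one_mul, one_mul, ex_full hS hq.1, ex_full hR hq.1]
  congr 1
  funext u
  rw [c2_c2 ht0 hn hn' hn (h0_ hS hq) (h1_ hR hq)]
  · show S q.1 m = S q.1 (m - 0)
    rw [sub_zero]
  · show R q.1 m' = R q.1 (m' - 0)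
    rw [sub_zero]
  · intro u hu
    rw [hS.right _ hq.1 u hu, hS.right _ hq.1 m le_rfl]
  · intro u hu
    rw [hR.right _ hq.1 u hu, hR.right _ hq.1 m' le_rfl]

theorem continuousOn_ex (hS : TrY L f f' m S) {Z : Type*} [TopologicalSpace Z] {B : Set Z}
    {X : Z → Y} {σ : Z → ℝ} (hX : ContinuousOn X B) (hXL : MapsTo X B L) (hσ : ContinuousOn σ B)
    (φ : Z → ℝ) (hφ : ContinuousOn φ B) :
    ContinuousOn (fun z => ex m (σ z) (S (X z)) (φ z)) B := by
  unfold ex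
  refine hS.cont' hX hXL ?_
  fun_prop

theorem continuousOn_ht (hS : TrY L f f' m S) (hR : TrY L g g' m' R) (ht0 : 0 ≤ t) :
    ContinuousOn (hty m m' t S R) (Icc (0:ℝ) 1 ×ˢ PY f g L t) := by
  have hX : ContinuousOn (fun z : ℝ × (Y × (ℝ →ᵇ M)) => z.2.1) (Icc (0:ℝ) 1 ×ˢ PY f g L t) := by
    fun_prop
  have hXL : MapsTo (fun z : ℝ × (Y × (ℝ →ᵇ M)) => z.2.1) (Icc (0:ℝ) 1 ×ˢ PY f g L t) L :=
    fun z hz => hz.2.1
  have hn := hS.nonneg
  have hn' := hR.nonneg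
  have hσ : ContinuousOn (fun z : ℝ × (Y × (ℝ →ᵇ M)) => max 0 (2 * z.1 - 1) * m)
      (Icc (0:ℝ) 1 ×ˢ PY f g L t) := by fun_prop
  have hσ' : ContinuousOn (fun z : ℝ × (Y × (ℝ →ᵇ M)) => max 0 (2 * z.1 - 1) * m')
      (Icc (0:ℝ) 1 ×ˢ PY f g L t) := by fun_prop
  have hμ : ContinuousOn (fun z : ℝ × (Y × (ℝ →ᵇ M)) => min 1 (2 * z.1) * (2 * m))
      (Icc (0:ℝ) 1 ×ˢ PY f g L t) := by fun_prop
  have hW : ContinuousOn (fun z : ℝ × (Y × (ℝ →ᵇ M)) => z.2.2) (Icc (0:ℝ) 1 ×ˢ PY f g L t) := by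
    fun_prop
  exact continuousOn_mo_c2 (B := Icc (0:ℝ) 1 ×ˢ PY f g L t) (X := fun z => z.2.1)
    (W := fun z => z.2.2) (τ := fun _ => t) (μ := fun z => min 1 (2 * z.1) * (2 * m))
    (Pf := fun z => ex m (max 0 (2 * z.1 - 1) * m) (S z.2.1))
    (Qf := fun z => ex m' (max 0 (2 * z.1 - 1) * m') (R z.2.1))
    (C := t + (m + m') + (m + m')) hX hW continuousOn_const hμ
    (fun φ hφ => continuousOn_ex hS hX hXL hσ φ hφ)
    (fun φ hφ => continuousOn_ex hR hX hXL hσ' φ hφ)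
    (fun _ _ => ht0) (fun z hz => by rw [ex_zero hS hz.2.1, eq_left hz.2.2 le_rfl])
    (fun z hz => by rw [ex_zero hR hz.2.1, eq_right hz.2.2 le_rfl])
    (fun z hz => ex_lip hS hz.2.1 _) (fun z hz => ex_lip hR hz.2.1 _) (fun z hz => hz.2.2.1)
    (by linarith)
    fun z hz => P_subset_PP (ht_mem (l := z.1) (q := z.2) hS hR ht0 hz.1.1 (mem_univ _) hz.2).2

end tw

end def_

end Vale.Agent.P216.C337
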