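import Vale.Agent.P216.H140.MidDefs
import Vale.Agent.P216.C313.CellRel

/-!
# P216-C, block C12-MID: `ExcL` and `KSeqOut`

* `excL`: excision of the handle for list cochains;
* `exists_prim`: a normalised relative coboundary has a normalised relative primitive;
* `kSeqOut`: the classes `κ j ~ ξ ^ j`, `κ j` zero on the small lists of `L j`.
-/

open Set Finsupp

namespace Vale.Agent.P216.C337

open Vale.Agent.P216.AS Vale.Agent.P216.PS Vale.Agent.P216.Sl Vale.Agent.P216.H901
open Vale.Agent.P216.H83 Vale.Agent.P216.H133C Vale.Agent.P216.H140 Vale.Agent.P216.MV337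
open Vale.Agent.P216.N929 (Coc Fine one1)

/-- **[EX]** -/
theorem excL : ExcL := by
  intro M _ _ d h C k _ _ j _ m f hf he
  have h1 : clsR (tr M) (on k) f hf = 0 := by
    apply (C313.exc_cell C k j m).1
    rw [map_zero, resR_clsR, clsR_eq_zero]
    exact he
  exact clsR_eq_zero.1 h1

section

variable {k : Type} [Field k] {E : Type} [PseudoMetricSpace E]

theorem smL_sub {X : Set E} {ε : ℝ} {l l' : List E} (h : SmL X ε l) (hl : ∀ x ∈ l', x ∈ l) :
    SmL X ε l' :=
  ⟨fun x hx => h.1 x (hl x hx), fun x hx y hy => h.2 x (hl x hx) y (hl y hy)⟩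

/-- A normalised relative coboundary has a normalised relative primitive. -/
theorem exists_prim {X A : Set E} {n : ℕ} {f : List E → k} (hN : Nrm f) (hc : CocL X n f)
    (hv : VanL A (n + 1) f) (he : ExR X A n f) :
    ∃ μ : List E → k, Nrm μ ∧ VanL A n μ ∧ VanL X (n + 1) fun l => f l - dl μ l := by
  obtain ⟨g, -, ⟨ε₁, hε₁, hg⟩, ε₂, hε₂, he⟩ := he
  obtain ⟨ε₃, hε₃, hc⟩ := hc
  obtain ⟨ε₄, hε₄, hv⟩ := hv
  refine ⟨fun l => nrm g l - hmt f l, (nrm_Nrm g).sub hN.hmt, ?_, ?_⟩
  · refine ⟨min ε₁ ε₄, lt_min hε₁ hε₄, fun l hl hs => ?_⟩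
    have h1 : nrm g l = 0 := nrm_eq_zero fun l' hl' hx =>
      hg l' (hl'.trans hl) ((smL_sub hs hx).mono le_rfl (min_le_left _ _))
    have h2 : hmt f l = 0 := hmt_eq_zero fun l' hl' hx =>
      hv l' (by omega) ((smL_sub hs hx).mono le_rfl (min_le_right _ _))
    simp only [h1, h2, sub_zero]
  · refine ⟨min ε₂ ε₃, lt_min hε₂ hε₃, fun l hl hs => ?_⟩
    have h1 : nrm f l = nrm (dl g) l := nrm_congr fun l' hl' hx =>
      he l' (hl'.trans hl) ((smL_sub hs hx).mono le_rfl (min_le_left _ _))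
    have h2 : hmt (dl f) l = 0 := hmt_eq_zero fun l' hl' hx =>
      hc l' (by omega) ((smL_sub hs hx).mono le_rfl (min_le_right _ _))
    have h3 := nrm_sub f l
    rw [h2, add_zero, h1, ← dl_nrm] at h3
    have h4 : dl (fun l => nrm g l - hmt f l) l = dl (nrm g) l - dl (hmt f) l := by
      have := PS.dl_add (nrm g) (fun l => (-1 : k) * hmt f l) l
      rw [PS.dl_smul] at this
      have e : (fun l => nrm g l - hmt f l) = fun l => nrm g l + (-1 : k) * hmt f l := by
        funext l; ring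
      rw [e, this]
      ring
    change f l - dl (fun l => nrm g l - hmt f l) l = 0
    rw [h4, ← h3]
    ring

/-- The cup product with a cocycle of degree `d`. -/
theorem cup_cocL {d n : ℕ} {ε : ℝ} (hε : 0 < ε) {ξ f : List E → k}
    (hξ : Coc (univ : Set E) ε d ξ) (hf : CocL (univ : Set E) n f) :
    CocL (univ : Set E) (d + n) (N929.cup d ξ f) := by
  obtain ⟨ε', hε', hf⟩ := hf
  refine ⟨min ε ε', lt_min hε hε', fun l hl hs => ?_⟩
  have h1 : dl ξ (l.take (d + 2)) = 0 :=
    hξ _ (by rw [List.length_take]; omega) ⟨fun _ _ => mem_univ _, fun x hx y hy =>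
      (hs.2 x (List.mem_of_mem_take hx) y (List.mem_of_mem_take hy)).trans_le (min_le_left _ _)⟩
  have h2 : dl f (l.drop d) = 0 :=
    hf _ (by rw [List.length_drop]; omega) ⟨fun _ _ => mem_univ _, fun x hx y hy =>
      (hs.2 x (List.mem_of_mem_drop hx) y (List.mem_of_mem_drop hy)).trans_le (min_le_right _ _)⟩
  rw [N929.dl_cup d ξ f l (by omega), h1, h2, zero_mul, mul_zero, mul_zero, add_zero]

/-- The cup product vanishes where the second factor does. -/
theorem cup_vanL {d n : ℕ} {A : Set E} (ξ : List E → k) {f : List E → k} (hf : VanL A (n + 1) f) :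
    VanL A (d + n + 1) (N929.cup d ξ f) := by
  obtain ⟨ε', hε', hf⟩ := hf
  refine ⟨ε', hε', fun l hl hs => ?_⟩
  have h2 : f (l.drop d) = 0 :=
    hf _ (by rw [List.length_drop]; omega) (smL_sub hs fun x hx => List.mem_of_mem_drop hx)
  change ξ _ * f _ = 0
  rw [h2, mul_zero]

theorem cocL_sub_dl {X : Set E} {n : ℕ} {f : List E → k} (hf : CocL X n f) (μ : List E → k) :
    CocL X n fun l => f l - dl μ l := by
  obtain ⟨ε, hε, hf⟩ := hf
  refine ⟨ε, hε, fun l hl hs => ?_⟩
  have e : (fun l => f l - dl μ l) = fun l => f l + (-1 : k) * dl μ l := by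
    funext l; ring
  rw [e, PS.dl_add, PS.dl_smul, hf l hl hs, N929.dl_dl, mul_zero, add_zero]

theorem one1_cocL : CocL (univ : Set E) 0 (one1 k E) := by
  refine ⟨1, one_pos, fun l hl _ => ?_⟩
  obtain ⟨x, y, rfl⟩ := List.length_eq_two.1 hl
  rw [dl_cons, dl_cons, dl_nil]
  simp [one1]

omit [PseudoMetricSpace E] in
theorem one1_Nrm : Nrm (one1 k E) := fun l hl => by
  rw [one1, if_neg]
  intro h1
  obtain ⟨x, rfl⟩ := List.length_eq_one_iff.1 h1
  exact hl (List.isChain_singleton x)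

end

section Step

variable {k : Type} [Field k] {M : Type} [MetricSpace M] {d h : ℕ}

/-- The induction hypothesis. -/
structure Good (C : CellDec M d h) (j : ℕ) (κ : List M → k) : Prop where
  n : Nrm κ
  c : CocL (univ : Set M) (d * j) κ
  v : j ≤ h → VanL (C.L j) (d * j + 1) κ

theorem exists_step [CompactSpace M] (C : CellDec M d h) (hd : 1 ≤ d) {ε : ℝ} (hε : 0 < ε)
    {ξ : List M → k} (hN : Nrm ξ) (hξ : Coc (univ : Set M) ε d ξ) (j : ℕ) (κ : List M → k) :
    ∃ μ : List M → k, Nrm μ ∧ (Good C j κ → j ≤ h → VanL (C.L j) (d * (j + 1)) μ ∧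
      VanL (C.L (j + 1)) (d * (j + 1) + 1) fun l => N929.cup d ξ κ l - dl μ l) := by
  by_cases hg : Good C j κ ∧ j ≤ h
  · obtain ⟨hg, hj⟩ := hg
    have e : d + d * j = d * (j + 1) := by ring
    have h1 : CocL (univ : Set M) (d * (j + 1)) (N929.cup d ξ κ) := e ▸ cup_cocL hε hξ hg.c
    have h2 : VanL (C.L j) (d * (j + 1) + 1) (N929.cup d ξ κ) := e ▸ cup_vanL ξ (hg.v hj)
    have h3 : ExR (C.L (j + 1)) (C.L j) (d * (j + 1)) (N929.cup d ξ κ) := by
      have hne : d * (j + 1) ≠ d * j := by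
        intro h; rw [mul_add] at h; omega
      have := C313.cellRel_zero (k := k) C hj hne
        (clsR (tr M) (on k) (N929.cup d ξ κ) ⟨h1.mono (subset_univ _), h2⟩)
      exact clsR_eq_zero.1 this
    obtain ⟨μ, a, b, c⟩ := exists_prim (N929.Nrm.cup d hN hg.n) (h1.mono (subset_univ _)) h2 h3
    exact ⟨μ, a, fun _ _ => ⟨b, c⟩⟩
  · exact ⟨fun _ => 0, fun _ _ => rfl, fun h1 h2 => absurd ⟨h1, h2⟩ hg⟩

end Step

/-- **[KS]** -/
theorem kSeqOut : KSeqOut := by
  intro M _ _ d h C hd hR k _ h2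
  obtain ⟨ξ, hN, ⟨ε, hε, hξ⟩, hne⟩ := hR k h2
  choose F hFN hF using fun (j : ℕ) (κ : List M → k) => exists_step C hd hε hN hξ j κ
  let κ : ℕ → List M → k := fun j => Nat.rec (one1 k M)
    (fun j κ => fun l => N929.cup d ξ κ l - dl (F j κ) l) j
  let μ : ℕ → List M → k := fun j => Nat.casesOn j (fun _ => 0) fun j => F j (κ j)
  have κs : ∀ j, κ (j + 1) = fun l => N929.cup d ξ (κ j) l - dl (μ (j + 1)) l := fun j => rfl
  have hμ : ∀ j, Nrm (μ j) := by
    intro j
    cases j with
    | zero => exact fun _ _ => rfl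
    | succ j => exact hFN _ _
  have hg : ∀ j, Good C j (κ j) := by
    intro j
    induction j with
    | zero =>
      refine ⟨one1_Nrm, one1_cocL, fun _ => ?_⟩
      rw [C.L_zero]
      exact vanL_empty
    | succ j ih =>
      refine ⟨?_, ?_, fun hj => ?_⟩
      · rw [κs]
        exact Nrm.sub (N929.Nrm.cup d hN ih.n) (hμ (j + 1)).dl
      · rw [κs]
        have e : d + d * j = d * (j + 1) := by ring
        exact e ▸ cocL_sub_dl (cup_cocL hε hξ ih.c) _
      · exact (hF j (κ j) ih (by omega)).2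
  have hν : ∀ j, ∃ ν : List M → k, (j = 0 → ν = fun _ => 0) ∧ ∃ δ > 0, ∀ l, l.length = d * j + 1 →
      SmL (univ : Set M) δ l → κ j l = pw ξ d j l + dl ν l := by
    intro j
    induction j with
    | zero =>
      refine ⟨fun _ => 0, fun _ => rfl, 1, one_pos, fun l _ _ => ?_⟩
      rw [PS.dl_zero_fun, add_zero]
      rfl
    | succ j ih =>
      obtain ⟨ν, hν0, δ, hδ, hν⟩ := ih
      refine ⟨fun l => (-1) ^ d * N929.cup d ξ ν l + (-1) * μ (j + 1) l,
        fun h => absurd h (Nat.succ_ne_zero j), min ε δ, lt_min hε hδ, fun l hl hs => ?_⟩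
      have e : d * (j + 1) = d + d * j := by ring
      rw [κs, PS.dl_add, PS.dl_smul, PS.dl_smul]
      have h1 : N929.cup d ξ (κ j) l = ξ (l.take (d + 1)) * pw ξ d j (l.drop d) +
          ξ (l.take (d + 1)) * dl ν (l.drop d) := by
        change ξ _ * κ j _ = _
        rw [hν (l.drop d) (by rw [List.length_drop]; omega)
          ((smL_sub hs fun x hx => List.mem_of_mem_drop hx).mono le_rfl (min_le_right _ _)),
          mul_add]
      have h2 : ξ (l.take (d + 1)) * dl ν (l.drop d) = (-1) ^ d * dl (N929.cup d ξ ν) l := by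
        rcases Nat.eq_zero_or_pos j with h0 | hj
        · have e1 : ν = fun _ => 0 := hν0 h0
          have e2 : N929.cup d ξ ν = fun _ => 0 := by
            funext l
            change ξ _ * ν _ = 0
            rw [e1, mul_zero]
          rw [e1] at e2 ⊢
          rw [e2, PS.dl_zero_fun, PS.dl_zero_fun, mul_zero, mul_zero]
        · have h4 : d ≤ d * j := Nat.le_mul_of_pos_right d hj
          have h5 : d + 2 ≤ l.length := by omega
          have h3 : dl ξ (l.take (d + 2)) = 0 :=
            hξ _ (by rw [List.length_take]; omega) ⟨fun _ _ => mem_univ _, fun x hx y hy =>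
              (hs.2 x (List.mem_of_mem_take hx) y (List.mem_of_mem_take hy)).trans_le
                (min_le_left _ _)⟩
          rw [N929.dl_cup d ξ ν l h5, h3, zero_mul, zero_add, ← mul_assoc, ← mul_pow]
          norm_num
      change N929.cup d ξ (κ j) l - _ = ξ _ * pw ξ d j _ + _
      rw [h1, h2]
      ring
  refine ⟨⟨ξ, κ, μ, ε, hε, hN, fun j => (hg j).n, hμ, hξ, rfl, κs, fun j => (hg j).c,
    fun j => (hg j).v, fun j hj => (hF j (κ j) (hg j) hj).1, fun j hj => ?_, fun j hj hex => ?_⟩⟩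
  · exact (hF j (κ j) (hg j) hj).2
  · obtain ⟨g, hg0, δ₁, hδ₁, hgl⟩ := hex
    obtain ⟨ν, hν0, δ, hδ, hν⟩ := hν j
    refine hne j hj ⟨fun l => g l + (-1) * ν l, fun h0 l => ?_, min δ₁ δ, lt_min hδ₁ hδ,
      fun l hl hs => ?_⟩
    · have hj0 : j = 0 := by
        rcases Nat.mul_eq_zero.1 h0 with h | h
        · omega
        · exact h
      change g l + (-1) * ν l = 0
      rw [hg0 h0 l, hν0 hj0]
      ring
    · rw [PS.dl_add, PS.dl_smul, ← hgl l hl (hs.mono le_rfl (min_le_left _ _)),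
        hν l hl ((hs.mono le_rfl (min_le_right _ _)).mono (subset_univ _) le_rfl)]
      ring

end Vale.Agent.P216.C337
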