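import Vale.Agent.P216.C337.Sys
import Vale.Agent.P216.C313.Relh
import Vale.Agent.P216.H901.W3
import Vale.Agent.P216.H456.PTriv

/-!
# P216-C, C05: the path spaces over a cell

`Cell n A B Φ`: `Φ : (I^n, ∂I^n) → (A, B)` is a relative homeomorphism of closed subsets of `M`.
`XG g t`: Moore-Lipschitz paths `w` of time `t` with `w t = g (w 0)`.
`cellIntl`, `cellIntl'`, `cell_low`: the cohomology of `(XG g over A, XG g over B)` is interleaved
with the cohomology of `P x₀ b t`, with a shift of the degree by `n`.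
-/

set_option linter.all false

namespace Vale.Agent.P216.C337

open Set Filter Topology BoundedContinuousFunction
open Vale.Agent.P216.PS Vale.Agent.P216.MV337
open Vale.Agent.P216.AS (IsMap IsHtpy)
open Vale.Agent.P216.H901 (Hp SpIntl tr Cu cub bdc ovr PM Intl PMIso PMr isoRefl isoSus cub_low
  bdc_subset mono_cub mono_bdc mono_empty)
open Vale.Agent.P216.H83 (MonoP monoP_empty pmP pmX ovr_mono)
open Vale.Agent.P216.C313 (RelH isoRelH isMap_of)

/-! ### The cube -/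

/-- the cube -/
def cube (n : ℕ) : Set (Fin n → ℝ) := {v | ∀ i, v i ∈ Icc (0:ℝ) 1}

/-- the boundary of the cube -/
def bcube (n : ℕ) : Set (Fin n → ℝ) := {v | v ∈ cube n ∧ ∃ i, v i = 0 ∨ v i = 1}

theorem bcube_subset (n : ℕ) : bcube n ⊆ cube n := fun _ h => h.1

theorem isCompact_cube (n : ℕ) : IsCompact (cube n) := by
  have : cube n = Set.pi univ fun _ => Icc (0:ℝ) 1 := by
    ext v
    exact ⟨fun h i _ => h i, fun h i => h i trivial⟩
  rw [this]
  exact isCompact_univ_pi fun _ => isCompact_Icc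

theorem isCompact_bcube (n : ℕ) : IsCompact (bcube n) := by
  have : bcube n = cube n ∩ ⋃ i, {v : Fin n → ℝ | v i = 0 ∨ v i = 1} := by
    ext v
    simp [bcube]
  rw [this]
  refine (isCompact_cube n).inter_right (isClosed_iUnion_of_finite fun i => ?_)
  exact (isClosed_eq (continuous_apply i) continuous_const).union
    (isClosed_eq (continuous_apply i) continuous_const)

/-! ### Paths with `w t = g (w 0)` -/

section XG

variable {M : Type} [MetricSpace M] {g : M → M} {t t' : ℝ} {w : ℝ →ᵇ M} {A B : Set M}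

/-- Moore-Lipschitz paths of time `t` from `x` to `g x` -/
def XG (g : M → M) (t : ℝ) : Set (ℝ →ᵇ M) := {w | w ∈ P (w 0) (g (w 0)) t}

theorem XG_id (t : ℝ) : XG (fun x : M => x) t = FL M t := rfl

theorem XG_const (b : M) (t : ℝ) : XG (fun _ : M => b) t = H456.PF b t := rfl

theorem XG_mono (h : t ≤ t') : XG g t ⊆ XG g t' := fun _ hw => P_mono h hw

theorem mono_XG (g : M → M) : MonoP (XG g) := fun _ _ _ h => XG_mono h

theorem mono_ovrXG (g : M → M) (D : Set M) : MonoP (ovr evz (XG g) D) :=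
  fun s t _ h => ovr_mono (XG_mono h) le_rfl

theorem mono_P (a b : M) : MonoP (fun t => P a b t) := fun _ _ _ h => P_mono h

variable [CompactSpace M]

theorem isCompact_ovrXG (hg : Continuous g) (hA : IsClosed A) (ht : 0 ≤ t) :
    IsCompact (ovr evz (XG g) A t) := by
  have e : ovr evz (XG g) A t = PP M t ∩ ({w | w t = g (w 0)} ∩ {w | w 0 ∈ A}) := by
    ext w
    constructor
    · rintro ⟨h1, h2⟩
      exact ⟨P_subset_PP h1, eq_right h1 le_rfl, h2⟩
    · rintro ⟨h1, h2, h3⟩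
      exact ⟨mem_P_iff.2 ⟨h1, rfl, h2⟩, h3⟩
  rw [e]
  have c0 : Continuous fun w : ℝ →ᵇ M => w 0 := by fun_prop
  have ct : Continuous fun w : ℝ →ᵇ M => w t := by fun_prop
  exact (isCompact_PP ht).inter_right ((isClosed_eq ct (hg.comp c0)).inter (hA.preimage c0))

end XG

/-! ### Cells -/

/-- `Φ : (I^n, ∂I^n) → (A, B)` is a relative homeomorphism. -/
structure Cell (n : ℕ) {M : Type} [MetricSpace M] (A B : Set M) (Φ : (Fin n → ℝ) → M) :
    Prop where
  cA : IsClosed A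
  cB : IsClosed B
  sub : B ⊆ A
  cont : ContinuousOn Φ (cube n)
  map : MapsTo Φ (cube n) A
  bd : MapsTo Φ (bcube n) B
  out : ∀ v ∈ cube n, v ∉ bcube n → Φ v ∉ B
  inj : ∀ v ∈ cube n, v ∉ bcube n → ∀ v' ∈ cube n, v' ∉ bcube n → Φ v = Φ v' → v = v'
  surj : ∀ x ∈ A, x ∉ B → ∃ v ∈ cube n, Φ v = x

section cell

variable {n : ℕ} {M : Type} [MetricSpace M] [CompactSpace M] {A B : Set M}
  {Φ : (Fin n → ℝ) → M} {g : M → M} {x₀ b : M} {m m' : ℝ} {S R : (Fin n → ℝ) → ℝ → M}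

/-- the relative homeomorphism `(v, w) ↦ w` -/
theorem Cell.relH (C : Cell n A B Φ) (hg : Continuous g) {t : ℝ} (ht : 0 ≤ t) :
    RelH (PY Φ (g ∘ Φ) (cube n) t) (PY Φ (g ∘ Φ) (bcube n) t) (ovr evz (XG g) A t)
      (ovr evz (XG g) B t) (Prod.snd : (Fin n → ℝ) × (ℝ →ᵇ M) → (ℝ →ᵇ M)) := by
  have key : ∀ (q : (Fin n → ℝ) × (ℝ →ᵇ M)) (L : Set (Fin n → ℝ)), q ∈ PY Φ (g ∘ Φ) L t →
      q.2 ∈ XG g t ∧ q.2 0 = Φ q.1 := by
    intro q L hq
    have h0 : q.2 0 = Φ q.1 := eq_left hq.2 le_rfl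
    refine ⟨?_, h0⟩
    show q.2 ∈ P (q.2 0) (g (q.2 0)) t
    rw [h0]
    exact hq.2
  have cX := isCompact_PY (isCompact_cube n) C.cont (hg.comp_continuousOn C.cont) ht
  exact {
    cX := cX
    cA := isCompact_PY (isCompact_bcube n) (C.cont.mono (bcube_subset n))
      (hg.comp_continuousOn (C.cont.mono (bcube_subset n))) ht
    cB := isCompact_ovrXG hg C.cB ht
    AX := PY_mono (bcube_subset n) le_rfl
    BY := ovr_mono le_rfl C.sub
    map := isMap_of cX continuousOn_snd fun q hq => ⟨(key q _ hq).1, by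
      show q.2 0 ∈ A
      rw [(key q _ hq).2]
      exact C.map hq.1⟩
    sub := fun q hq => ⟨(key q _ hq).1, by
      show q.2 0 ∈ B
      rw [(key q _ hq).2]
      exact C.bd hq.1⟩
    off := fun q hq hq' h => C.out q.1 hq.1 (fun hb => hq' ⟨hb, hq.2⟩) (by
      rw [← (key q _ hq).2]
      exact h.2)
    inj := fun q hq hqn q' hq' hqn' h => by
      have e1 := (key q _ hq).2
      have e2 := (key q' _ hq').2
      refine Prod.ext (C.inj q.1 hq.1 (fun hb => hqn ⟨hb, hq.2⟩) q'.1 hq'.1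
        (fun hb => hqn' ⟨hb, hq'.2⟩) ?_) h
      rw [← e1, ← e2, h]
    surj := fun w hw hwB => by
      obtain ⟨v, hv, hvw⟩ := C.surj (w 0) hw.2 fun hB => hwB ⟨hw.1, hB⟩
      refine ⟨(v, w), ⟨hv, ?_⟩, rfl⟩
      show w ∈ P (Φ v) (g (Φ v)) t
      rw [hvw]
      exact hw.1 }

theorem mono_PY {Y : Type} (f g : Y → M) (L : Set Y) : MonoP (PY f g L) :=
  fun _ _ _ h => PY_mono le_rfl h

/-! ### Coordinates -/

theorem enc_mem {v : Fin n → ℝ} {w : ℝ →ᵇ M} {Z : Set (ℝ →ᵇ M)} :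
    enc n w v ∈ cub n Z ↔ w ∈ Z ∧ v ∈ cube n := by
  rw [mem_cub, dec1_enc, dec2_enc]
  rfl

theorem enc_mem' {v : Fin n → ℝ} {w : ℝ →ᵇ M} {Z : Set (ℝ →ᵇ M)} :
    enc n w v ∈ bdc n Z ↔ w ∈ Z ∧ v ∈ bcube n := by
  rw [mem_bdc, mem_cub, dec1_enc, dec2_enc]
  exact ⟨fun h => ⟨h.1.1, h.1.2, h.2⟩, fun h => ⟨⟨h.1, h.2.1⟩, h.2.2⟩⟩

/-- the maps `(v, w) ↦ enc n w v` -/
noncomputable def eE (n : ℕ) (q : (Fin n → ℝ) × (ℝ →ᵇ M)) : Cu (ℝ →ᵇ M) n := enc n q.2 q.1

/-- the inverse -/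
noncomputable def eD (n : ℕ) (z : Cu (ℝ →ᵇ M) n) : (Fin n → ℝ) × (ℝ →ᵇ M) := (dec2 n z, dec1 n z)

theorem eD_eE (q : (Fin n → ℝ) × (ℝ →ᵇ M)) : eD n (eE n q) = q := by
  unfold eD eE
  rw [dec1_enc, dec2_enc]

theorem eE_eD (z : Cu (ℝ →ᵇ M) n) : eE n (eD n z) = z := enc_dec n z

theorem eE_map (Z : Set (ℝ →ᵇ M)) (hZ : IsCompact Z) :
    IsMap (tr _) (tr _) (cube n ×ˢ Z) (cub n Z) (eE n : _ → Cu (ℝ →ᵇ M) n) :=
  map_of_cont ((isCompact_cube n).prod hZ) (enc_cont n continuousOn_snd continuousOn_fst)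
    fun q hq => enc_mem.2 ⟨hq.2, hq.1⟩

theorem eD_map (Z : Set (ℝ →ᵇ M)) (hZ : IsCompact Z) :
    IsMap (tr _) (tr _) (cub n Z) (cube n ×ˢ Z) (eD n : Cu (ℝ →ᵇ M) n → _) :=
  map_of_cont (isCompact_cub n hZ)
    ((dec2_cont n).continuousOn.prodMk (dec1_cont n).continuousOn)
    fun z hz => ⟨((mem_cub n).1 hz).2, ((mem_cub n).1 hz).1⟩

theorem eE_sub (Z : Set (ℝ →ᵇ M)) : MapsTo (eE n) (bcube n ×ˢ Z) (bdc n Z) :=
  fun q hq => enc_mem'.2 ⟨hq.2, hq.1⟩

theorem eD_sub (Z : Set (ℝ →ᵇ M)) : MapsTo (eD n : Cu (ℝ →ᵇ M) n → _) (bdc n Z) (bcube n ×ˢ Z) := by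
  intro z hz
  obtain ⟨h1, h2⟩ := (mem_bdc n).1 hz
  exact ⟨⟨((mem_cub n).1 h1).2, h2⟩, ((mem_cub n).1 h1).1⟩

end cell

/-! ### Composition with strict isomorphisms -/

section iso

variable {E E' E'' : Type} [PseudoMetricSpace E] [PseudoMetricSpace E'] [PseudoMetricSpace E'']
  {A A' : ℝ → Set E} {B B' : ℝ → Set E'} {C C' : ℝ → Set E''} {c : ℝ}

theorem hp_congr {X X' : Set E} {Y Y' : Set E'} {f f' g g' : E → E'} (h : Hp X X' Y Y' f g)
    (hf : EqOn f f' X) (hg : EqOn g g' X) : Hp X X' Y Y' f' g' := by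
  obtain ⟨D, h1, h2, h3, h4⟩ := h
  exact ⟨D, h1, h2, h3.trans hf, h4.trans hg⟩

/-- Replacing the second family by an isomorphic one. -/
def spIso (I : SpIntl A A' B B' c) (hc : 0 ≤ c) (e : E' → E'') (d : E'' → E')
    (he : ∀ t, 0 < t → IsMap (tr E') (tr E'') (B t) (C t) e)
    (he' : ∀ t, 0 < t → MapsTo e (B' t) (C' t))
    (hd : ∀ t, 0 < t → IsMap (tr E'') (tr E') (C t) (B t) d)
    (hd' : ∀ t, 0 < t → MapsTo d (C' t) (B' t)) (hde : ∀ x, d (e x) = x)
    (hed : ∀ x, e (d x) = x) : SpIntl A A' C C' c where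
  f t := e ∘ I.f t
  g t := I.g t ∘ d
  f_map t ht := (he _ (by linarith)).comp (I.f_map t ht)
  f_sub t ht := (he' _ (by linarith)).comp (I.f_sub t ht)
  g_map t ht := (I.g_map t ht).comp (hd t ht)
  g_sub t ht := (I.g_sub t ht).comp (hd' t ht)
  f_nat s t hs hst := (I.f_nat s t hs hst).comp_left (he _ (by linarith)) (he' _ (by linarith))
  g_nat s t hs hst := (I.g_nat s t hs hst).comp_right (hd s hs) (hd' s hs)
  gf t ht := hp_congr (I.gf t ht) (fun x _ => rfl) fun x _ => by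
    show I.g (t + c) (I.f t x) = I.g (t + c) (d (e (I.f t x)))
    rw [hde]
  fg t ht := hp_congr (((I.fg t ht).comp_left (he _ (by linarith)) (he' _ (by linarith))).comp_right
    (hd t ht) (hd' t ht)) (fun x _ => hed x) fun x _ => rfl

end iso

section main

variable {n : ℕ} {M : Type} [MetricSpace M] [CompactSpace M] {A B : Set M}
  {Φ : (Fin n → ℝ) → M} {g : M → M} {x₀ b : M} {m m' : ℝ} {S R : (Fin n → ℝ) → ℝ → M}
  {k : Type} [Field k]

/-- **The interleaving over the cube.** -/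
noncomputable def spCell (C : Cell n A B Φ) (hg : Continuous g)
    (hS : TrY (cube n) Φ (fun _ => x₀) m S) (hR : TrY (cube n) (g ∘ Φ) (fun _ => b) m' R) :
    SpIntl (PY Φ (g ∘ Φ) (cube n)) (PY Φ (g ∘ Φ) (bcube n)) (fun t => cub n (P x₀ b t))
      (fun t => bdc n (P x₀ b t)) (m + m') :=
  spIso (C := fun t => cub n (P x₀ b t)) (C' := fun t => bdc n (P x₀ b t))
    (spPY (isCompact_cube n) C.cont (hg.comp_continuousOn C.cont) continuousOn_const
      continuousOn_const (bcube_subset n) hS hR) (add_nonneg hS.nonneg hR.nonneg) (eE n) (eD n)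
    (fun t ht => eE_map _ (isCompact_P _ _ _)) (fun t ht => eE_sub _)
    (fun t ht => eD_map _ (isCompact_P _ _ _)) (fun t ht => eD_sub _) eD_eE eE_eD

/-- **The persistence modules of a cell.** -/
noncomputable def cellIntl (C : Cell n A B Φ) (hg : Continuous g)
    (hS : TrY (cube n) Φ (fun _ => x₀) m S) (hR : TrY (cube n) (g ∘ Φ) (fun _ => b) m' R)
    (h2 : (2 : k) ≠ 0) (q : ℕ) :
    Intl (pmP k (mono_ovrXG g A) (mono_ovrXG g B) q)
      (PMr k (fun t => cub n (P x₀ b t)) (fun t => bdc n (P x₀ b t)) (mono_cub n (mono_P x₀ b))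
        (mono_bdc n (mono_P x₀ b)) q) (m + m') :=
  PMIso.intl (isoRelH h2 (mono_PY _ _ _) (mono_PY _ _ _) (mono_ovrXG g A) (mono_ovrXG g B)
      (fun t ht => C.relH hg ht.le) q) (isoRefl _) (add_nonneg hS.nonneg hR.nonneg)
    ((spCell C hg hS hR).intl k (mono_PY _ _ _) (mono_PY _ _ _) (mono_cub n (mono_P x₀ b))
      (mono_bdc n (mono_P x₀ b)) (fun t => PY_mono (bcube_subset n) le_rfl)
      (fun t => bdc_subset _ _) (add_nonneg hS.nonneg hR.nonneg) q)

/-- **The persistence modules of a cell**, degrees `≥ n`. -/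
noncomputable def cellIntl' (C : Cell n A B Φ) (hg : Continuous g)
    (hS : TrY (cube n) Φ (fun _ => x₀) m S) (hR : TrY (cube n) (g ∘ Φ) (fun _ => b) m' R)
    (h2 : (2 : k) ≠ 0) (q : ℕ) :
    Intl (pmP k (mono_ovrXG g A) (mono_ovrXG g B) (q + n)) (pmX k (mono_P x₀ b) q) (m + m') :=
  PMIso.intl (isoRefl _) (isoSus h2 (mono_P x₀ b) n q).symm (add_nonneg hS.nonneg hR.nonneg)
    (cellIntl C hg hS hR h2 (q + n))

/-- **The persistence modules of a cell**, degrees `< n`. -/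
theorem cell_low (C : Cell n A B Φ) (hg : Continuous g)
    (hS : TrY (cube n) Φ (fun _ => x₀) m S) (hR : TrY (cube n) (g ∘ Φ) (fun _ => b) m' R)
    (h2 : (2 : k) ≠ 0) {q : ℕ} (hq : q < n) :
    (pmP k (mono_ovrXG g A) (mono_ovrXG g B) q).Eph (2 * (m + m')) := by
  have h := (cellIntl C hg hS hR h2 q).eph (add_nonneg hS.nonneg hR.nonneg) le_rfl
    (fun s t hs hst _ x => cub_low h2 (P x₀ b s) n q hq _)
  rwa [zero_add] at h

/-! ### Tracks over a cell -/

theorem continuousOn_shrink (n : ℕ) :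
    Continuous fun p : (Fin n → ℝ) × ℝ => (1 - p.2) • p.1 := by fun_prop

theorem shrink_mem {v : Fin n → ℝ} (hv : v ∈ cube n) {s : ℝ} (hs : s ∈ Icc (0:ℝ) 1) :
    (1 - s) • v ∈ cube n := fun i => by
  show (1 - s) * v i ∈ Icc (0:ℝ) 1
  exact ⟨mul_nonneg (by linarith [hs.2]) (hv i).1,
    mul_le_one₀ (by linarith [hs.1]) (hv i).1 (hv i).2⟩

theorem zero_mem_cube (n : ℕ) : (0 : Fin n → ℝ) ∈ cube n := fun i => ⟨le_rfl, zero_le_one⟩

/-- Tracks from a map of the cube to a constant map. -/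
theorem exists_cube_tracks [PathConnectedSpace M] {ρ : ℝ} (hρ : 0 < ρ) (hU : LS.UniqSeg M ρ)
    {f : (Fin n → ℝ) → M} (hf : ContinuousOn f (cube n)) (a : M) :
    ∃ ℓ T, TrY (cube n) f (fun _ => a) ℓ T := by
  obtain ⟨ℓ₁, T₁, h₁, -⟩ := exists_tracksY hρ hU (isCompact_cube n) (f := f)
    (g := fun _ => f 0) (H := fun p => f ((1 - p.2) • p.1))
    (hf.comp (continuousOn_shrink n).continuousOn fun p hp => shrink_mem hp.1 hp.2)
    (fun v _ => by show f ((1 - 0) • v) = f v; rw [sub_zero, one_smul])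
    (fun v _ => by show f ((1 - 1) • v) = f 0; rw [sub_self, zero_smul])
  obtain ⟨γ⟩ := PathConnectedSpace.joined (f 0) a
  obtain ⟨ℓ₂, T₂, h₂, -⟩ := exists_tracksY hρ hU (isCompact_cube n) (f := fun _ => f 0)
    (g := fun _ => a) (H := fun p : (Fin n → ℝ) × ℝ => γ.extend p.2)
    ((γ.continuous_extend.comp continuous_snd).continuousOn)
    (fun v _ => by show γ.extend 0 = f 0; exact γ.extend_zero)
    (fun v _ => by show γ.extend 1 = a; exact γ.extend_one)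
  exact ⟨_, _, h₁.trans h₂⟩

/-- **C05.** The persistence modules of a cell; any larger constant will do. -/
theorem exists_cell [PathConnectedSpace M] {ρ : ℝ} (hρ : 0 < ρ) (hU : LS.UniqSeg M ρ)
    (C : Cell n A B Φ) (hg : Continuous g) (x₀ b : M) : ∃ c₀ : ℝ, 0 ≤ c₀ ∧ ∀ c, c₀ ≤ c →
    ∀ (k : Type) [Field k], (2 : k) ≠ 0 →
      (∀ q, Nonempty (Intl (pmP k (mono_ovrXG g A) (mono_ovrXG g B) q)
        (PMr k (fun t => cub n (P x₀ b t)) (fun t => bdc n (P x₀ b t)) (mono_cub n (mono_P x₀ b))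
          (mono_bdc n (mono_P x₀ b)) q) c)) ∧
      (∀ q, Nonempty (Intl (pmP k (mono_ovrXG g A) (mono_ovrXG g B) (q + n))
        (pmX k (mono_P x₀ b) q) c)) ∧
      ∀ q < n, (pmP k (mono_ovrXG g A) (mono_ovrXG g B) q).Eph (2 * c) := by
  obtain ⟨m, S, hS⟩ := exists_cube_tracks hρ hU C.cont x₀
  obtain ⟨m', R, hR⟩ := exists_cube_tracks hρ hU (hg.comp_continuousOn C.cont) b
  refine ⟨m + m', add_nonneg hS.nonneg hR.nonneg, fun c hc k _ h2 => ?_⟩
  have hS' : TrY (cube n) Φ (fun _ => x₀) (c - m') S := hS.le (by linarith)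
  have e : c - m' + m' = c := sub_add_cancel _ _
  refine ⟨fun q => ?_, fun q => ?_, fun q hq => ?_⟩
  · have := cellIntl C hg hS' hR h2 q
    rw [e] at this
    exact ⟨this⟩
  · have := cellIntl' C hg hS' hR h2 q
    rw [e] at this
    exact ⟨this⟩
  · have := cell_low C hg hS' hR h2 hq
    rwa [e] at this

end main

end Vale.Agent.P216.C337
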