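import Vale.Agent.P216.H83.Exc

/-!
# P216-C, [C-TRIV]: relative homeomorphisms in the Alexander-Spanier cohomology

`relHom_bijective`: a map `F : (X', A') → (X, A)` of compact pairs which is a bijection of
`X' \ A'` onto `X \ A` induces an isomorphism `H^q(X, A) → H^q(X', A')`.
-/

set_option linter.all false

namespace Vale.Agent.P216.C337

open Set
open Vale.Agent.P216.AS
open Vale.Agent.P216.H901 (tr on)
open Vale.Agent.P216.H83 (tw_tr inv_tr)

/-- Relative homeomorphism of compact pairs. -/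
structure RelH {E E' : Type} [PseudoMetricSpace E] [PseudoMetricSpace E'] (X' A' : Set E')
    (X A : Set E) (F : E' → E) : Prop where
  cX' : IsCompact X'
  cA' : IsCompact A'
  cX : IsCompact X
  cA : IsCompact A
  sub' : A' ⊆ X'
  sub : A ⊆ X
  cont : ContinuousOn F X'
  map : MapsTo F X' X
  mapA : MapsTo F A' A
  out : ∀ x ∈ X', x ∉ A' → F x ∉ A
  inj : ∀ x ∈ X', ∀ y ∈ X', x ∉ A' → y ∉ A' → F x = F y → x = y
  surj : ∀ x ∈ X, x ∉ A → ∃ x' ∈ X', F x' = x

section unif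

variable {E E' : Type} [MetricSpace E] [MetricSpace E']

/-- Uniform injectivity. -/
theorem unif_inj {K : Set E'} {F : E' → E} (hK : IsCompact K) (hF : ContinuousOn F K)
    (hi : InjOn F K) {η : ℝ} (hη : 0 < η) :
    ∃ δ > 0, ∀ x ∈ K, ∀ y ∈ K, dist (F x) (F y) < δ → dist x y < η := by
  by_contra hcon
  push Not at hcon
  have hC : IsCompact ((K ×ˢ K) ∩ {p : E' × E' | η ≤ dist p.1 p.2}) :=
    (hK.prod hK).inter_right (isClosed_le continuous_const (continuous_fst.dist continuous_snd))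
  have hne : ((K ×ˢ K) ∩ {p : E' × E' | η ≤ dist p.1 p.2}).Nonempty := by
    obtain ⟨x, hx, y, hy, -, h⟩ := hcon 1 one_pos
    exact ⟨(x, y), ⟨hx, hy⟩, h⟩
  have hc : ContinuousOn (fun p : E' × E' => dist (F p.1) (F p.2))
      ((K ×ˢ K) ∩ {p : E' × E' | η ≤ dist p.1 p.2}) := by
    have e1 : ContinuousOn (fun p : E' × E' => F p.1)
        ((K ×ˢ K) ∩ {p : E' × E' | η ≤ dist p.1 p.2}) :=
      hF.comp continuousOn_fst fun p hp => hp.1.1
    have e2 : ContinuousOn (fun p : E' × E' => F p.2)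
        ((K ×ˢ K) ∩ {p : E' × E' | η ≤ dist p.1 p.2}) :=
      hF.comp continuousOn_snd fun p hp => hp.1.2
    exact continuous_dist.comp_continuousOn (e1.prodMk e2)
  obtain ⟨⟨x, y⟩, ⟨⟨hx, hy⟩, hxy⟩, hmin⟩ := hC.exists_isMinOn hne hc
  have h1 : 0 < dist (F x) (F y) := by
    apply dist_pos.2
    intro h
    have : x = y := hi hx hy h
    have hxy' : η ≤ dist x y := hxy
    rw [this, dist_self] at hxy'
    linarith
  obtain ⟨x', hx', y', hy', hd, h⟩ := hcon _ h1
  have := hmin (a := (x', y')) ⟨⟨hx', hy'⟩, h⟩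
  exact absurd hd (not_lt.2 this)

/-- Disjoint compact sets have positive distance. -/
theorem exists_dist {K A : Set E} (hK : IsCompact K) (hA : IsCompact A) (hd : ∀ x ∈ K, x ∉ A) :
    ∃ δ > 0, ∀ x ∈ K, ∀ a ∈ A, δ ≤ dist x a := by
  obtain ⟨δ, hδ, h⟩ := exists_near_inter hK hA one_pos
  refine ⟨δ, hδ, fun x hx a ha => ?_⟩
  by_contra hlt
  push Not at hlt
  obtain ⟨c, hc, -⟩ := h x hx a ha hlt
  exact hd c hc.1 hc.2

end unif

section main

variable {E E' : Type} [MetricSpace E] [MetricSpace E'] {X' A' : Set E'} {X A : Set E}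
  {F : E' → E} {k : Type} [Field k]

/-- The map of pairs. -/
theorem RelH.isMap (h : RelH X' A' X A F) : IsMap (tr E') (tr E) X' X F :=
  IsMap.of_continuousOn h.cX' h.cont h.map fun i => i.elim

theorem RelH.isMor_Zn (h : RelH X' A' X A F) :
    IsMor (Zn (tr E) (on k) X A) (Zr (tr E) (on k) X X) (Zn (tr E') (on k) X' A')
      (Zr (tr E') (on k) X' X') (pbK k F) := by
  refine IsMor.of_comm (fun {n c} hc => ⟨fun i => i.elim, ?_⟩)
    (fun {n c} hc => ⟨fun i => i.elim, h.isMap.pb_van le_rfl h.map hc.2⟩) (pbK_d F)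
  obtain ⟨ε, hε, h1⟩ := hc.2
  obtain ⟨δ, hδ, h2⟩ := h.isMap.uc ε hε
  refine ⟨δ, hδ, fun x hx => h1 _ ⟨⟨fun i => h.map (hx.1.1 i), fun i j =>
    h2 _ (hx.1.1 i) _ (hx.1.1 j) (hx.1.2 i j)⟩, fun i => ?_⟩⟩
  obtain ⟨y, hy, hxy⟩ := hx.2 i
  exact ⟨F y, h.mapA hy, h2 _ (hx.1.1 i) _ (h.sub' hy) hxy⟩

/-- Injectivity on cochains. -/
theorem RelH.inj_coch (h : RelH X' A' X A F) {n : ℕ} {c : (Fin (n + 1) → E) → k}
    (hc : VanN X A c) (hc' : Van X' (fun x : Fin (n + 1) → E' => c (F ∘ x))) : Van X c := by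
  obtain ⟨ε, hε, h1⟩ := hc
  obtain ⟨η, hη, h2⟩ := hc'
  -- the part of `X'` which is mapped far away from `A`
  have hcl : IsClosed {z : E | ∀ a ∈ A, ε / 2 ≤ dist z a} := by
    have : {z : E | ∀ a ∈ A, ε / 2 ≤ dist z a} = ⋂ a ∈ A, {z : E | ε / 2 ≤ dist z a} := by
      ext z; simp
    rw [this]
    exact isClosed_biInter fun a _ => isClosed_le continuous_const (continuous_id.dist continuous_const)
  have hK : IsCompact (X' ∩ F ⁻¹' {z : E | ∀ a ∈ A, ε / 2 ≤ dist z a}) :=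
    h.cX'.of_isClosed_subset (h.cont.preimage_isClosed_of_isClosed h.cX'.isClosed hcl)
      inter_subset_left
  have hnA : ∀ x ∈ X' ∩ F ⁻¹' {z : E | ∀ a ∈ A, ε / 2 ≤ dist z a}, x ∉ A' := by
    intro x hx hxA
    have := hx.2 (F x) (h.mapA hxA)
    rw [dist_self] at this
    linarith
  obtain ⟨δ, hδ, h3⟩ := unif_inj hK (h.cont.mono inter_subset_left) (fun x hx y hy hxy =>
    h.inj x hx.1 y hy.1 (hnA x hx) (hnA y hy) hxy) hη
  refine ⟨min δ (ε / 2), lt_min hδ (by linarith), fun x hx => ?_⟩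
  by_cases hnear : ∃ i, ∃ a ∈ A, dist (x i) a < ε / 2
  · obtain ⟨i, a, ha, hia⟩ := hnear
    refine h1 x ⟨⟨hx.1, fun j l => ((hx.2 j l).trans_le (min_le_right _ _)).trans (by linarith)⟩,
      fun j => ⟨a, ha, ?_⟩⟩
    have e1 := (hx.2 j i).trans_le (min_le_right _ _)
    linarith [dist_triangle (x j) (x i) a]
  · push Not at hnear
    have hex : ∀ i, ∃ y ∈ X' ∩ F ⁻¹' {z : E | ∀ a ∈ A, ε / 2 ≤ dist z a}, F y = x i := by
      intro i
      have hi : x i ∉ A := by
        intro hi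
        have := hnear i (x i) hi
        rw [dist_self] at this
        linarith
      obtain ⟨y, hy, hyx⟩ := h.surj (x i) (hx.1 i) hi
      refine ⟨y, ⟨hy, ?_⟩, hyx⟩
      show ∀ a ∈ A, ε / 2 ≤ dist (F y) a
      rw [hyx]
      exact hnear i
    choose y hy hyx using hex
    have e : x = F ∘ y := funext fun i => (hyx i).symm
    rw [e]
    refine h2 y ⟨fun i => (hy i).1, fun i j => h3 _ (hy i) _ (hy j) ?_⟩
    rw [hyx, hyx]
    exact (hx.2 i j).trans_le (min_le_left _ _)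

open Classical in
/-- Surjectivity on cochains. -/
theorem RelH.surj_coch (h : RelH X' A' X A F) {n : ℕ} {y : (Fin (n + 1) → E') → k}
    (hy : VanN X' A' y) : ∃ c : (Fin (n + 1) → E) → k, VanN X A c ∧
      Van X' (fun x : Fin (n + 1) → E' => y x - c (F ∘ x)) := by
  obtain ⟨ε, hε, h1⟩ := hy
  have hcl : IsClosed {z : E' | ∀ a ∈ A', ε / 2 ≤ dist z a} := by
    have : {z : E' | ∀ a ∈ A', ε / 2 ≤ dist z a} = ⋂ a ∈ A', {z : E' | ε / 2 ≤ dist z a} := by
      ext z; simp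
    rw [this]
    exact isClosed_biInter fun a _ => isClosed_le continuous_const (continuous_id.dist continuous_const)
  set W : Set E' := X' ∩ {z : E' | ∀ a ∈ A', ε / 2 ≤ dist z a} with hW
  have hWc : IsCompact W := h.cX'.inter_right hcl
  have hWA : ∀ x ∈ W, x ∉ A' := by
    intro x hx hxA
    have := hx.2 x hxA
    rw [dist_self] at this
    linarith
  have hVc : IsCompact (F '' W) := hWc.image_of_continuousOn (h.cont.mono inter_subset_left)
  obtain ⟨δ, hδ, h2⟩ := exists_dist hVc h.cA (by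
    rintro _ ⟨w, hw, rfl⟩
    exact h.out w hw.1 (hWA w hw))
  refine ⟨fun x => if hx : ∀ i, ∃ w ∈ W, F w = x i then y fun i => (hx i).choose else 0,
    ⟨δ, hδ, fun x hx => ?_⟩, ε / 2, by linarith, fun x hx => ?_⟩
  · -- `c` vanishes near `A`
    refine dif_neg fun hx' => ?_
    obtain ⟨w, hw, hwx⟩ := hx' 0
    obtain ⟨a, ha, hd⟩ := hx.2 0
    have := h2 (F w) ⟨w, hw, rfl⟩ a ha
    rw [hwx] at this
    linarith
  · show y x - (if hx : ∀ i, ∃ w ∈ W, F w = (F ∘ x) i then y fun i => (hx i).choose else 0) = 0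
    split_ifs with hx'
    · have e : (fun i => (hx' i).choose) = x := by
        funext i
        have hs := (hx' i).choose_spec
        have hxi : x i ∉ A' := by
          intro hxA
          have h3 := h.out _ hs.1.1 (hWA _ hs.1)
          rw [hs.2] at h3
          exact h3 (h.mapA hxA)
        exact h.inj _ hs.1.1 _ (hx.1 i) (hWA _ hs.1) hxi hs.2
      rw [e, sub_self]
    · rw [sub_zero]
      push Not at hx'
      obtain ⟨i, hi⟩ := hx'
      have hiW : x i ∉ W := fun hiW => hi (x i) hiW rfl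
      have hia : ∃ a ∈ A', dist (x i) a < ε / 2 := by
        by_contra hcon
        push Not at hcon
        exact hiW ⟨hx.1 i, hcon⟩
      obtain ⟨a, ha, hia⟩ := hia
      refine h1 x ⟨⟨hx.1, fun j l => (hx.2 j l).trans (by linarith)⟩, fun j => ⟨a, ha, ?_⟩⟩
      linarith [dist_triangle (x j) (x i) a, hx.2 j i]

theorem RelH.bij_Zn (h : RelH X' A' X A F) (q : ℕ) :
    Function.Bijective (Hmap (h.isMor_Zn (k := k)) q) := by
  refine Hmap_bijective _ (fun {n c} hc hc' => ⟨fun i => i.elim, ?_⟩) fun {n y} hy => ?_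
  · exact h.inj_coch hc.2 hc'.2
  · obtain ⟨c, hc, hc'⟩ := h.surj_coch hy.2
    exact ⟨c, ⟨fun i => i.elim, hc⟩, fun i => i.elim, hc'⟩

theorem zr_le_zn {X A : Set E} (hA : A ⊆ X) :
    Zr (tr E) (on k) X X ≤ Zn (tr E) (on k) X A := by
  rw [Zr_self_eq_Zn]
  exact Zn_anti le_rfl hA

theorem bij_taut (h2 : (2 : k) ≠ 0) {X A : Set E} (hcA : IsCompact A) (hA : A ⊆ X) (q : ℕ) :
    Function.Bijective (Hinc (Zn_le_Zr hA) le_rfl q :
      H (Zn (tr E) (on k) X A) (Zr (tr E) (on k) X X) q →ₗ[k] Hr (tr E) (on k) X A q) :=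
  Hinc_bijective_of_top (zr_le_zn hA) (Zn_le_Zr hA)
    (fun n => taut (tw_tr h2 X) (inv_tr X) hcA hA (inv_tr A) n) q

/-- **Relative homeomorphisms are isomorphisms.** -/
theorem RelH.bijective (h : RelH X' A' X A F) (h2 : (2 : k) ≠ 0) (q : ℕ) :
    Function.Bijective (pullR (on k) h.isMap h.sub' h.mapA q :
      Hr (tr E) (on k) X A q →ₗ[k] Hr (tr E') (on k) X' A' q) := by
  have b1 := bij_taut h2 h.cA h.sub q
  have b2 := bij_taut h2 h.cA' h.sub' q
  have b3 := h.bij_Zn (k := k) q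
  have key : ∀ x, pullR (on k) h.isMap h.sub' h.mapA q
      (Hinc (Zn_le_Zr h.sub) le_rfl q x : Hr (tr E) (on k) X A q) =
      Hinc (Zn_le_Zr h.sub') le_rfl q (Hmap (h.isMor_Zn (k := k)) q x) := by
    intro x
    obtain ⟨c, hc, rfl⟩ := H.exists_mk x
    rfl
  constructor
  · intro x y hxy
    obtain ⟨x', rfl⟩ := b1.2 x
    obtain ⟨y', rfl⟩ := b1.2 y
    rw [key, key] at hxy
    rw [b3.1 (b2.1 hxy)]
  · intro z
    obtain ⟨z', rfl⟩ := b2.2 z
    obtain ⟨x, rfl⟩ := b3.2 z'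
    exact ⟨_, key x⟩

end main

end Vale.Agent.P216.C337
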