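import Vale.Agent.P216.C337.Tw
import Vale.Agent.P216.C313.Defs

/-!
# P216-C, [C-TRIV] (T1): interleavings of path spaces with parameters

`isCompact_PY`; `exists_tracksY` (tracks from a homotopy); `spPY` (the interleaving); `spXY`,
`spEY` = the versions for `C313.XY`, `C313.EY`.
-/

set_option linter.all false

namespace Vale.Agent.P216.C337

open Set Filter Topology BoundedContinuousFunction
open Vale.Agent.P216.PS Vale.Agent.P216.MV337
open Vale.Agent.P216.AS (IsMap IsHtpy)
open Vale.Agent.P216.H901 (Hp SpIntl tr)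

/-! ### Compactness -/

section compact

variable {M : Type*} [MetricSpace M] [CompactSpace M] {t : ℝ}

/-- `PP M t` is compact. -/
theorem isCompact_PP (ht : 0 ≤ t) : IsCompact (PP M t) := by
  let S : Set (C(Icc (0 : ℝ) t, M)) := {w | ∀ u v, dist (w u) (w v) ≤ |(u : ℝ) - v|}
  have hS : IsCompact S := by
    refine ArzelaAscoli.isCompact_of_equicontinuous S ?_ ?_
    · have himg : ContinuousMap.toFun '' S =
          {f : Icc (0 : ℝ) t → M | ∀ u v, dist (f u) (f v) ≤ |(u : ℝ) - v|} := by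
        ext f
        constructor
        · rintro ⟨g, hg, rfl⟩
          exact hg
        · intro hf
          have hc : Continuous f := by
            refine (LipschitzWith.of_dist_le_mul (K := 1) fun u v => ?_).continuous
            rw [NNReal.coe_one, one_mul, Subtype.dist_eq, Real.dist_eq]
            exact hf u v
          exact ⟨⟨f, hc⟩, hf, rfl⟩
      rw [himg]
      refine IsClosed.isCompact ?_
      simp only [Set.ofPred_forall]
      exact isClosed_iInter fun u => isClosed_iInter fun v =>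
        isClosed_le ((continuous_apply u).dist (continuous_apply v)) continuous_const
    · have := Metric.uniformEquicontinuous_of_continuity_modulus (fun r => r) tendsto_id
        (fun g : S => (g : Icc (0 : ℝ) t → M)) (fun x y g => by
          rw [Subtype.dist_eq, Real.dist_eq]
          exact g.2 x y)
      exact this.equicontinuous
  let ext : C(Icc (0 : ℝ) t, M) → (ℝ →ᵇ M) := fun w =>
    bc (fun u => w (projIcc 0 t ht u)) (w.continuous.comp continuous_projIcc)
  have hext : Continuous ext := by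
    refine LipschitzWith.continuous (K := 1) (LipschitzWith.of_dist_le_mul fun w w' => ?_)
    rw [NNReal.coe_one, one_mul, BoundedContinuousFunction.dist_le dist_nonneg]
    intro u
    exact ContinuousMap.dist_apply_le_dist (f := w) (g := w') (projIcc 0 t ht u)
  have himg : ext '' S = PP M t := by
    ext w
    constructor
    · rintro ⟨g, hg, rfl⟩
      refine ⟨fun u v => ?_, fun u hu => ?_, fun u hu => ?_⟩
      · refine (hg _ _).trans ?_
        exact abs_projIcc_sub_projIcc (h := ht) (c := u) (d := v)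
      · change g (projIcc 0 t ht u) = g (projIcc 0 t ht 0)
        rw [projIcc_of_le_left ht hu, projIcc_of_le_left ht le_rfl]
      · change g (projIcc 0 t ht u) = g (projIcc 0 t ht t)
        rw [projIcc_of_right_le ht hu, projIcc_of_right_le ht le_rfl]
    · intro hw
      refine ⟨⟨fun u => w u, w.continuous.comp continuous_subtype_val⟩,
        fun u v => hw.1 u v, ?_⟩
      ext u
      change w (projIcc 0 t ht u) = w u
      rcases le_total u 0 with h0 | h0
      · rw [projIcc_of_le_left ht h0, hw.2.1 u h0]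
      rcases le_total t u with h1 | h1
      · rw [projIcc_of_right_le ht h1, hw.2.2 u h1]
      · rw [projIcc_of_mem ht ⟨h0, h1⟩]
  rw [← himg]
  exact hS.image hext

variable {Y : Type*} [TopologicalSpace Y] [T2Space Y] {L : Set Y} {f g : Y → M}

/-- **`PY f g L t` is compact** for `L` compact. -/
theorem isCompact_PY (hL : IsCompact L) (hf : ContinuousOn f L) (hg : ContinuousOn g L)
    (ht : 0 ≤ t) : IsCompact (PY f g L t) := by
  have hK : IsCompact (L ×ˢ PP M t) := hL.prod (isCompact_PP ht)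
  have hc : ContinuousOn (fun q : Y × (ℝ →ᵇ M) => ((q.2 0, q.2 t), (f q.1, g q.1)))
      (L ×ˢ PP M t) := by
    refine ContinuousOn.prodMk (ContinuousOn.prodMk ?_ ?_) (ContinuousOn.prodMk ?_ ?_)
    · exact continuousOn_eval continuousOn_snd continuousOn_const
    · exact continuousOn_eval continuousOn_snd continuousOn_const
    · exact hf.comp continuousOn_fst fun q hq => hq.1
    · exact hg.comp continuousOn_fst fun q hq => hq.1
  have hcl : IsClosed {z : (M × M) × (M × M) | z.1 = z.2} := isClosed_diagonal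
  have := hc.preimage_isClosed_of_isClosed hK.isClosed hcl
  have e : PY f g L t = L ×ˢ PP M t ∩
      (fun q : Y × (ℝ →ᵇ M) => ((q.2 0, q.2 t), (f q.1, g q.1))) ⁻¹'
        {z : (M × M) × (M × M) | z.1 = z.2} := by
    ext q
    constructor
    · intro hq
      exact ⟨⟨hq.1, P_subset_PP hq.2⟩, Prod.ext (eq_left hq.2 le_rfl) (eq_right hq.2 le_rfl)⟩
    · rintro ⟨⟨h1, h2⟩, h3⟩
      have h3' : ((q.2 0, q.2 t) : M × M) = (f q.1, g q.1) := h3
      rw [Prod.mk.injEq] at h3'
      exact ⟨h1, mem_P_iff.2 ⟨h2, h3'.1, h3'.2⟩⟩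
  rw [e]
  exact hK.of_isClosed_subset this inter_subset_left

end compact

/-! ### Tracks from a homotopy -/

section tracks

variable {Y M : Type*} [PseudoMetricSpace Y] [MetricSpace M]

/-- **Tracks from a homotopy** `f ~ g` on a compact set; a point at which the homotopy is
stationary has a constant track. -/
theorem exists_tracksY [CompactSpace M] {ρ : ℝ} (hρ : 0 < ρ) (hU : LS.UniqSeg M ρ) {L : Set Y}
    (hL : IsCompact L) {f g : Y → M} {H : Y × ℝ → M} (hc : ContinuousOn H (L ×ˢ Icc (0:ℝ) 1))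
    (h0 : ∀ x ∈ L, H (x, 0) = f x) (h1 : ∀ x ∈ L, H (x, 1) = g x) :
    ∃ ℓ T, TrY L f g ℓ T ∧ ∀ y ∈ L, (∀ s ∈ Icc (0:ℝ) 1, H (y, s) = f y) → ∀ u, T y u = f y := by
  have huc := (hL.prod isCompact_Icc).uniformContinuousOn_of_continuous hc
  rw [Metric.uniformContinuousOn_iff] at huc
  obtain ⟨δ, hδ, huc⟩ := huc (ρ / 2) (by linarith)
  obtain ⟨N, hN⟩ := exists_nat_gt (1 / δ)
  have hN0 : (0:ℝ) < N := (by positivity : 0 < 1 / δ).trans hN
  have hN1 : 1 / (N:ℝ) < δ := by
    rw [div_lt_iff₀ hN0]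
    rw [div_lt_iff₀ hδ] at hN
    linarith
  have hmem : ∀ i : ℕ, i ≤ N → (i:ℝ) / N ∈ Icc (0:ℝ) 1 := fun i hi =>
    ⟨by positivity, (div_le_one hN0).2 (by exact_mod_cast hi)⟩
  have hd : ∀ x ∈ L, ∀ i < N, dist (H (x, (i:ℝ) / N)) (H (x, ((i + 1 : ℕ):ℝ) / N)) < ρ / 2 := by
    intro x hx i hi
    refine huc _ ⟨hx, hmem i hi.le⟩ _ ⟨hx, hmem (i + 1) hi⟩ ?_
    rw [Prod.dist_eq, dist_self, max_eq_right dist_nonneg, Real.dist_eq]
    have e : (i:ℝ) / N - ((i + 1 : ℕ):ℝ) / N = - (1 / N) := by push_cast; ring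
    rw [e, abs_neg, abs_of_pos (by positivity)]
    exact hN1
  have hr : ∀ i : ℕ, i < N → (0:ℝ) < (fun _ : ℕ => ρ / 2) i := fun _ _ => by
    show 0 < ρ / 2
    linarith
  refine ⟨N * (ρ / 2), fun x u => pg (fun i => H (x, (i:ℝ) / N)) (fun _ => ρ / 2) N u,
    ⟨?_, ?_, ?_, ?_, ?_⟩, ?_⟩
  · positivity
  · intro x hx u v
    have := dist_pg_le (x := fun i : ℕ => H (x, (i:ℝ) / N)) (Δ := fun _ => ρ / 2) (n := N) hU
      zero_le_one hr (fun i hi => (hd x hx i hi).trans (by linarith))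
      (fun i hi => by rw [one_mul]; exact (hd x hx i hi).le) u v
    rwa [one_mul] at this
  · intro x hx u hu
    show pg _ _ N u = f x
    rw [pg_of_nonpos hr hu]
    show H (x, ((0:ℕ):ℝ) / N) = f x
    rw [Nat.cast_zero, zero_div, h0 x hx]
  · intro x hx u hu
    show pg _ _ N u = g x
    rw [pg_of_ge hr (by rw [cs_const]; exact hu)]
    show H (x, (N:ℝ) / N) = g x
    rw [div_self hN0.ne', h1 x hx]
  · refine continuousOn_pg (S := Y × ℝ) (X := fun p i => H (p.1, (i:ℝ) / N)) (D := fun _ _ => ρ / 2)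
      (U := fun p => p.2) hU (fun i hi => ?_) (fun _ _ => continuousOn_const) continuousOn_snd
      (fun p _ i hi => hr i hi) fun p hp i hi => (hd p.1 hp.1 i hi).trans (by linarith)
    exact hc.comp (continuousOn_fst.prodMk continuousOn_const) fun p hp => ⟨hp.1, hmem i hi⟩
  · intro y hy hs u
    show pg _ _ N u = f y
    have hh : ∀ i ≤ N, H (y, (i:ℝ) / N) = f y := fun i hi => hs _ (hmem i hi)
    rw [pg_const (x := fun i : ℕ => H (y, (i:ℝ) / N)) (fun i hi => by
      show H (y, (i:ℝ) / N) = H (y, ((0:ℕ):ℝ) / N)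
      rw [hh i hi, hh 0 (Nat.zero_le _)])]
    exact hh 0 (Nat.zero_le _)

end tracks

/-! ### The interleaving -/

section sp

variable {Y M : Type} [MetricSpace Y] [MetricSpace M] [CompactSpace M] {L A : Set Y}
  {f f' g g' : Y → M} {m m' : ℝ} {S R : Y → ℝ → M}

theorem tm_aux' {s t σ : ℝ} (hst : s ≤ t) (hσ : σ ∈ Icc (0:ℝ) 1) :
    s ≤ s + σ * (t - s) ∧ s + σ * (t - s) ≤ t := by
  have h1 := mul_nonneg hσ.1 (sub_nonneg.2 hst)
  have h2 := mul_le_mul_of_nonneg_right hσ.2 (sub_nonneg.2 hst)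
  constructor <;> linarith

theorem isMap_tw (hL : IsCompact L) (hf : ContinuousOn f L) (hg : ContinuousOn g L)
    (hS : TrY L f f' m S) (hR : TrY L g g' m' R) {t : ℝ} (ht : 0 < t) :
    IsMap (tr (Y × (ℝ →ᵇ M))) (tr (Y × (ℝ →ᵇ M))) (PY f g L t) (PY f' g' L (t + (m + m')))
      (tw m t S R) :=
  map_of_cont (isCompact_PY hL hf hg ht.le) (continuousOn_tw hS hR ht.le)
    fun q hq => tw_mem hS hR ht.le hq.1 hq

theorem hp_nat (hL : IsCompact L) (hf : ContinuousOn f L) (hg : ContinuousOn g L) (hA : A ⊆ L)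
    (hS : TrY L f f' m S) (hR : TrY L g g' m' R) {s t : ℝ} (hs : 0 < s) (hst : s ≤ t) :
    Hp (PY f g L s) (PY f g A s) (PY f' g' L (t + (m + m'))) (PY f' g' A (t + (m + m')))
      (tw m s S R) (tw m t S R) := by
  have key : ∀ B : Set Y, B ⊆ L → ∀ σ ∈ Icc (0:ℝ) 1, ∀ q ∈ PY f g B s,
      tw m (s + σ * (t - s)) S R q ∈ PY f' g' B (t + (m + m')) := fun B hB σ hσ q hq =>
    PY_mono le_rfl (by linarith [(tm_aux' hst hσ).2])
      (tw_mem hS hR (hs.le.trans (tm_aux' hst hσ).1) hq.1 (PY_mono hB (tm_aux' hst hσ).1 hq))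
  refine hp_of_cont (isCompact_PY hL hf hg hs.le)
    (F := fun z => tw m (s + z.1 * (t - s)) S R z.2) ?_ (key L le_rfl) (key A hA) ?_ ?_
  · refine continuousOn_tw' hS hR (C := t) continuousOn_snd (by fun_prop) ?_ ?_ ?_
    · exact fun z hz => hs.le.trans (tm_aux' hst hz.1).1
    · exact fun z hz => (tm_aux' hst hz.1).2
    · exact fun z hz => PY_mono le_rfl (tm_aux' hst hz.1).1 hz.2
  · intro q hq
    show tw m (s + 0 * (t - s)) S R q = _
    rw [zero_mul, add_zero]
  · intro q hq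
    show tw m (s + 1 * (t - s)) S R q = _
    rw [one_mul, add_sub_cancel]

theorem hp_gf (hL : IsCompact L) (hf : ContinuousOn f L) (hg : ContinuousOn g L) (hA : A ⊆ L)
    (hS : TrY L f f' m S) (hR : TrY L g g' m' R) {t : ℝ} (ht : 0 < t) :
    Hp (PY f g L t) (PY f g A t) (PY f g L (t + (m + m') + (m + m')))
      (PY f g A (t + (m + m') + (m + m'))) id
      (tw m (t + (m + m')) (rv m S) (rv m' R) ∘ tw m t S R) :=
  hp_of_cont (isCompact_PY hL hf hg ht.le) (F := hty m m' t S R) (continuousOn_ht hS hR ht.le)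
    (fun σ hσ q hq => ht_mem hS hR ht.le hσ.1 hq.1 hq)
    (fun σ hσ q hq => ht_mem hS hR ht.le hσ.1 hq.1 (PY_mono hA le_rfl hq))
    (fun q hq => ht_zero hS hR ht.le hq) fun q hq => ht_one hS hR ht.le hq

theorem rv_rv (ℓ : ℝ) (T : Y → ℝ → M) : rv ℓ (rv ℓ T) = T := by
  funext y u
  unfold rv
  rw [sub_sub_cancel]

/-- **(T1)**: the interleaving of `PY f g` and `PY f' g'` along tracks. -/
noncomputable def spPY (hL : IsCompact L) (hf : ContinuousOn f L) (hg : ContinuousOn g L)
    (hf' : ContinuousOn f' L) (hg' : ContinuousOn g' L) (hA : A ⊆ L) (hS : TrY L f f' m S)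
    (hR : TrY L g g' m' R) :
    SpIntl (fun t => PY f g L t) (fun t => PY f g A t) (fun t => PY f' g' L t)
      (fun t => PY f' g' A t) (m + m') where
  f t := tw m t S R
  g t := tw m t (rv m S) (rv m' R)
  f_map t ht := isMap_tw hL hf hg hS hR ht
  f_sub t ht := fun q hq => tw_mem hS hR ht.le hq.1 (PY_mono hA le_rfl hq)
  g_map t ht := isMap_tw hL hf' hg' hS.rv_ hR.rv_ ht
  g_sub t ht := fun q hq => tw_mem hS.rv_ hR.rv_ ht.le hq.1 (PY_mono hA le_rfl hq)
  f_nat s t hs hst := hp_nat hL hf hg hA hS hR hs hst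
  g_nat s t hs hst := hp_nat hL hf' hg' hA hS.rv_ hR.rv_ hs hst
  gf t ht := hp_gf hL hf hg hA hS hR ht
  fg t ht := by
    have := hp_gf hL hf' hg' hA hS.rv_ hR.rv_ ht
    rw [rv_rv, rv_rv] at this
    exact this

end sp

/-! ### `XY` and `EY` -/

section XE

variable {Y M : Type} [MetricSpace M] {f : Y → M} {b : M} {L : Set Y} {t : ℝ}

theorem XY_eq : C313.XY f t L = PY f f L t := by
  ext q
  constructor
  · rintro ⟨h1, h2, h3⟩
    exact ⟨h1, by rw [← h3]; exact h2⟩
  · rintro ⟨h1, h2⟩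
    have h3 : q.2 0 = f q.1 := eq_left h2 le_rfl
    exact ⟨h1, by rw [← h3] at h2; exact h2, h3⟩

theorem EY_eq : C313.EY f b t L = PY f (fun _ => b) L t := rfl

theorem XY_const (x₀ : M) : C313.XY (fun _ : Y => x₀) t L = L ×ˢ P x₀ x₀ t := XY_eq

theorem EY_const (x₀ : M) : C313.EY (fun _ : Y => x₀) b t L = L ×ˢ P x₀ b t := rfl

end XE

/-- Replacing the sets by equal sets. -/
def spEq {E E' : Type} [PseudoMetricSpace E] [PseudoMetricSpace E'] {A A' A₁ A₁' : ℝ → Set E}
    {B B' B₁ B₁' : ℝ → Set E'} {c c₁ : ℝ} (I : SpIntl A A' B B' c) (hc : c₁ = c)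
    (h1 : ∀ t, A₁ t = A t) (h2 : ∀ t, A₁' t = A' t) (h3 : ∀ t, B₁ t = B t)
    (h4 : ∀ t, B₁' t = B' t) : SpIntl A₁ A₁' B₁ B₁' c₁ where
  f := I.f
  g := I.g
  f_map t ht := by rw [h1, h3, hc]; exact I.f_map t ht
  f_sub t ht := by rw [h2, h4, hc]; exact I.f_sub t ht
  g_map t ht := by rw [h1, h3, hc]; exact I.g_map t ht
  g_sub t ht := by rw [h2, h4, hc]; exact I.g_sub t ht
  f_nat s t hs hst := by rw [h1, h2, h3, h4, hc]; exact I.f_nat s t hs hst
  g_nat s t hs hst := by rw [h1, h2, h3, h4, hc]; exact I.g_nat s t hs hst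
  gf t ht := by rw [h1, h2, h1, h2, hc]; exact I.gf t ht
  fg t ht := by rw [h3, h4, h3, h4, hc]; exact I.fg t ht

section main

variable {Y M : Type} [MetricSpace Y] [MetricSpace M] [CompactSpace M] {L A : Set Y} {f : Y → M}
  {x₀ b : M} {ℓ : ℝ} {T : Y → ℝ → M}

theorem isCompact_XY (hL : IsCompact L) (hf : ContinuousOn f L) {t : ℝ} (ht : 0 ≤ t) :
    IsCompact (C313.XY f t L) := by
  rw [XY_eq]
  exact isCompact_PY hL hf hf ht

theorem isCompact_EY (hL : IsCompact L) (hf : ContinuousOn f L) {t : ℝ} (ht : 0 ≤ t) :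
    IsCompact (C313.EY f b t L) := isCompact_PY hL hf continuousOn_const ht

/-- **(T1)** for the free loops over a piece on which `f` is nullhomotopic; the maps are
`tw ℓ t T T` and `tw ℓ t (rv ℓ T) (rv ℓ T)` and keep the first component. -/
noncomputable def spXY (hL : IsCompact L) (hf : ContinuousOn f L) (hA : A ⊆ L)
    (hT : TrY L f (fun _ => x₀) ℓ T) :
    SpIntl (fun t => C313.XY f t L) (fun t => C313.XY f t A) (fun t => L ×ˢ P x₀ x₀ t)
      (fun t => A ×ˢ P x₀ x₀ t) (2 * ℓ) :=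
  spEq (spPY hL hf hf continuousOn_const continuousOn_const hA hT hT) (two_mul ℓ)
    (fun t => XY_eq) (fun t => XY_eq) (fun t => rfl) (fun t => rfl)

/-- **(T1)** for the paths to `b` over a piece on which `f` is nullhomotopic. -/
noncomputable def spEY (hL : IsCompact L) (hf : ContinuousOn f L) (hA : A ⊆ L)
    (hT : TrY L f (fun _ => x₀) ℓ T) :
    SpIntl (fun t => C313.EY f b t L) (fun t => C313.EY f b t A) (fun t => L ×ˢ P x₀ b t)
      (fun t => A ×ˢ P x₀ b t) ℓ :=
  spEq (spPY (g := fun _ => b) (g' := fun _ => b) (m' := 0) hL hf continuousOn_const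
    continuousOn_const continuousOn_const hA hT (TrY.const_ continuousOn_const)) (add_zero ℓ).symm
    (fun t => rfl) (fun t => rfl) (fun t => rfl) (fun t => rfl)

/-- Tracks from a nullhomotopy. -/
theorem exists_null {ρ : ℝ} (hρ : 0 < ρ) (hU : LS.UniqSeg M ρ) (hL : IsCompact L)
    {H : Y × ℝ → M} (hc : ContinuousOn H (L ×ˢ Icc (0:ℝ) 1)) (h0 : ∀ x ∈ L, H (x, 0) = f x)
    (h1 : ∀ x ∈ L, H (x, 1) = x₀) : ∃ ℓ T, TrY L f (fun _ => x₀) ℓ T := by
  obtain ⟨ℓ, T, h, -⟩ := exists_tracksY hρ hU hL hc h0 h1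
  exact ⟨ℓ, T, h⟩

end main

end Vale.Agent.P216.C337
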